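import Vale.Agent.P006.DN.NCblk

/-!
P006, block DN (helper611): the interior bound of `∑_s NCf (blk α l s) A B`.
-/

namespace Vale.Agent.P006.DN

open scoped Classical
open Finset DISP

/-- arithmetic of the tail term -/
theorem tail_arith {A H0 K δ : ℝ} (hA : 2 ≤ A) (hδ : 0 < δ) (hδ1 : δ ≤ 1) (hK0 : 0 < K)
    (hKA : K ≤ A ^ (1 - δ)) (hH0 : H0 = (2 * A) ^ (1 - δ / 2)) :
    (2 * A * H0) ^ (δ / 8) * (2 * A * H0 + (2 * A) ^ 2 * H0 ^ (1 / 3 : ℝ) +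
      (2 * A) ^ (5 / 3 : ℝ) * H0 ^ (2 / 3 : ℝ)) * (K / H0) ^ 2 ≤
    24 * A ^ 2 * K ^ (1 / 3 : ℝ) * A ^ (-(δ / 2)) := by
  have hA0 : 0 < A := by linarith
  have h2A : 1 ≤ 2 * A := by linarith
  have h2A0 : 0 < 2 * A := by linarith
  have hH0pos : 0 < H0 := by rw [hH0]; positivity
  have hH1 : 1 ≤ H0 := by rw [hH0]; exact Real.one_le_rpow h2A (by linarith)
  have hH2 : H0 ≤ 2 * A := by
    rw [hH0]
    calc (2 * A) ^ (1 - δ / 2) ≤ (2 * A) ^ (1 : ℝ) :=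
          Real.rpow_le_rpow_of_exponent_le h2A (by linarith)
      _ = 2 * A := Real.rpow_one _
  -- bracket
  have hb : 2 * A * H0 + (2 * A) ^ 2 * H0 ^ (1 / 3 : ℝ) + (2 * A) ^ (5 / 3 : ℝ) * H0 ^ (2 / 3 : ℝ) ≤
      3 * ((2 * A) ^ 2 * H0 ^ (1 / 3 : ℝ)) := by
    have e1 : 2 * A * H0 ≤ (2 * A) ^ 2 * H0 ^ (1 / 3 : ℝ) := by
      have : H0 = H0 ^ (2 / 3 : ℝ) * H0 ^ (1 / 3 : ℝ) := by
        rw [← Real.rpow_add hH0pos]; norm_num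
      calc 2 * A * H0 = 2 * A * H0 ^ (2 / 3 : ℝ) * H0 ^ (1 / 3 : ℝ) := by
            rw [mul_assoc (2 * A), ← this]
        _ ≤ 2 * A * (2 * A) * H0 ^ (1 / 3 : ℝ) := by
            gcongr
            calc H0 ^ (2 / 3 : ℝ) ≤ H0 ^ (1 : ℝ) :=
                  Real.rpow_le_rpow_of_exponent_le hH1 (by norm_num)
              _ = H0 := Real.rpow_one _
              _ ≤ 2 * A := hH2
        _ = _ := by ring
    have e2 : (2 * A) ^ (5 / 3 : ℝ) * H0 ^ (2 / 3 : ℝ) ≤ (2 * A) ^ 2 * H0 ^ (1 / 3 : ℝ) := by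
      have e3 : H0 ^ (2 / 3 : ℝ) = H0 ^ (1 / 3 : ℝ) * H0 ^ (1 / 3 : ℝ) := by
        rw [← Real.rpow_add hH0pos]; norm_num
      have e4 : (2 * A) ^ 2 = (2 * A) ^ (5 / 3 : ℝ) * (2 * A) ^ (1 / 3 : ℝ) := by
        rw [← Real.rpow_add h2A0]; norm_num
      rw [e3, e4]
      calc _ = (2 * A) ^ (5 / 3 : ℝ) * H0 ^ (1 / 3 : ℝ) * H0 ^ (1 / 3 : ℝ) := by ring
        _ ≤ (2 * A) ^ (5 / 3 : ℝ) * (2 * A) ^ (1 / 3 : ℝ) * H0 ^ (1 / 3 : ℝ) := by gcongr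
    linarith
  have hp : (2 * A * H0) ^ (δ / 8) ≤ 2 * A ^ (δ / 4) := by
    calc (2 * A * H0) ^ (δ / 8) ≤ (2 * A * (2 * A)) ^ (δ / 8) := by gcongr
      _ = (2 * A) ^ (δ / 4) := by
          rw [Real.mul_rpow h2A0.le h2A0.le, ← Real.rpow_add h2A0]
          congr 1; ring
      _ = 2 ^ (δ / 4) * A ^ (δ / 4) := Real.mul_rpow (by norm_num) hA0.le
      _ ≤ 2 * A ^ (δ / 4) := by
          gcongr
          calc (2 : ℝ) ^ (δ / 4) ≤ 2 ^ (1 : ℝ) :=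
                Real.rpow_le_rpow_of_exponent_le (by norm_num) (by linarith)
            _ = 2 := Real.rpow_one 2
  have hKH : K / H0 ≤ A ^ (-(δ / 2)) := by
    rw [div_le_iff₀ hH0pos]
    have h1 : A ^ (1 - δ / 2) ≤ H0 := by
      rw [hH0]
      exact Real.rpow_le_rpow hA0.le (by linarith) (by linarith)
    calc K ≤ A ^ (1 - δ) := hKA
      _ = A ^ (-(δ / 2)) * A ^ (1 - δ / 2) := by rw [← Real.rpow_add hA0]; congr 1; ring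
      _ ≤ _ := by gcongr
  have hKH0 : 0 < K / H0 := by positivity
  have hK2 : H0 ^ (1 / 3 : ℝ) * (K / H0) ^ 2 ≤ K ^ (1 / 3 : ℝ) * A ^ (-(5 * δ / 6)) := by
    have e1 : (K / H0) ^ 2 = (K / H0) ^ (1 / 3 : ℝ) * (K / H0) ^ (5 / 3 : ℝ) := by
      rw [← Real.rpow_add hKH0]; norm_num
    have e2 : H0 ^ (1 / 3 : ℝ) * (K / H0) ^ (1 / 3 : ℝ) = K ^ (1 / 3 : ℝ) := by
      rw [← Real.mul_rpow hH0pos.le hKH0.le]
      congr 1; field_simp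
    have e3 : (K / H0) ^ (5 / 3 : ℝ) ≤ A ^ (-(5 * δ / 6)) := by
      calc (K / H0) ^ (5 / 3 : ℝ) ≤ (A ^ (-(δ / 2))) ^ (5 / 3 : ℝ) := by gcongr
        _ = A ^ (-(5 * δ / 6)) := by rw [← Real.rpow_mul hA0.le]; congr 1; ring
    rw [e1, ← mul_assoc, e2]
    gcongr
  calc _ ≤ (2 * A ^ (δ / 4)) * (3 * ((2 * A) ^ 2 * H0 ^ (1 / 3 : ℝ))) * (K / H0) ^ 2 := by gcongr
    _ = 24 * A ^ 2 * A ^ (δ / 4) * (H0 ^ (1 / 3 : ℝ) * (K / H0) ^ 2) := by ring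
    _ ≤ 24 * A ^ 2 * A ^ (δ / 4) * (K ^ (1 / 3 : ℝ) * A ^ (-(5 * δ / 6))) := by gcongr
    _ = 24 * A ^ 2 * K ^ (1 / 3 : ℝ) * (A ^ (δ / 4) * A ^ (-(5 * δ / 6))) := by ring
    _ ≤ 24 * A ^ 2 * K ^ (1 / 3 : ℝ) * A ^ (-(δ / 2)) := by
        gcongr
        rw [← Real.rpow_add hA0]
        exact Real.rpow_le_rpow_of_exponent_le (by linarith) (by linarith)

/-- monotonicity of the tail bound -/
theorem tail_mono {A H0 H ε : ℝ} (hA : 0 < A) (hε : 0 < ε) (hε1 : ε ≤ 1 / 2) (hH0 : 0 < H0)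
    (hH : H0 ≤ H) :
    (2 * A * H) ^ ε * (2 * A * H + (2 * A) ^ 2 * H ^ (1 / 3 : ℝ) +
      (2 * A) ^ (5 / 3 : ℝ) * H ^ (2 / 3 : ℝ)) ≤
    (2 * A * H0) ^ ε * (2 * A * H0 + (2 * A) ^ 2 * H0 ^ (1 / 3 : ℝ) +
      (2 * A) ^ (5 / 3 : ℝ) * H0 ^ (2 / 3 : ℝ)) * (H / H0) ^ (3 / 2 : ℝ) := by
  set x : ℝ := H / H0 with hx
  have hx1 : 1 ≤ x := by rw [hx, le_div_iff₀ hH0]; linarith
  have hx0 : 0 < x := by linarith
  have hHx : H = H0 * x := by rw [hx]; field_simp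
  have e1 : (2 * A * H) ^ ε = (2 * A * H0) ^ ε * x ^ ε := by
    rw [hHx, ← mul_assoc, Real.mul_rpow (by positivity) hx0.le]
  have e2 : H ^ (1 / 3 : ℝ) ≤ H0 ^ (1 / 3 : ℝ) * x := by
    rw [hHx, Real.mul_rpow hH0.le hx0.le]
    gcongr
    calc x ^ (1 / 3 : ℝ) ≤ x ^ (1 : ℝ) := Real.rpow_le_rpow_of_exponent_le hx1 (by norm_num)
      _ = x := Real.rpow_one x
  have e3 : H ^ (2 / 3 : ℝ) ≤ H0 ^ (2 / 3 : ℝ) * x := by
    rw [hHx, Real.mul_rpow hH0.le hx0.le]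
    gcongr
    calc x ^ (2 / 3 : ℝ) ≤ x ^ (1 : ℝ) := Real.rpow_le_rpow_of_exponent_le hx1 (by norm_num)
      _ = x := Real.rpow_one x
  have e4 : x ^ ε * x ≤ x ^ (3 / 2 : ℝ) := by
    calc x ^ ε * x = x ^ (ε + 1) := by rw [Real.rpow_add_one hx0.ne']
      _ ≤ x ^ (3 / 2 : ℝ) := Real.rpow_le_rpow_of_exponent_le hx1 (by linarith)
  have hbr : 2 * A * H + (2 * A) ^ 2 * H ^ (1 / 3 : ℝ) + (2 * A) ^ (5 / 3 : ℝ) * H ^ (2 / 3 : ℝ) ≤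
      (2 * A * H0 + (2 * A) ^ 2 * H0 ^ (1 / 3 : ℝ) + (2 * A) ^ (5 / 3 : ℝ) * H0 ^ (2 / 3 : ℝ)) *
        x := by
    calc _ ≤ 2 * A * (H0 * x) + (2 * A) ^ 2 * (H0 ^ (1 / 3 : ℝ) * x) +
          (2 * A) ^ (5 / 3 : ℝ) * (H0 ^ (2 / 3 : ℝ) * x) := by
          rw [← hHx]
          gcongr
      _ = _ := by ring
  calc _ ≤ ((2 * A * H0) ^ ε * x ^ ε) * ((2 * A * H0 + (2 * A) ^ 2 * H0 ^ (1 / 3 : ℝ) +
        (2 * A) ^ (5 / 3 : ℝ) * H0 ^ (2 / 3 : ℝ)) * x) := by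
        rw [e1]; gcongr
    _ = (2 * A * H0) ^ ε * (2 * A * H0 + (2 * A) ^ 2 * H0 ^ (1 / 3 : ℝ) +
        (2 * A) ^ (5 / 3 : ℝ) * H0 ^ (2 / 3 : ℝ)) * (x ^ ε * x) := by ring
    _ ≤ _ := by gcongr

/-- **the interior bound** -/
theorem NCf_blocks {δ : ℝ} (hδ : 0 < δ) (hδ1 : δ ≤ 1) (A'' : ℕ) : ∃ X0 C : ℝ, 3 ≤ X0 ∧ 0 ≤ C ∧
    ∀ (X A B G : ℝ) (α : O → ℂ), X0 ≤ X → X ^ δ ≤ A → A ^ (1 + δ) ≤ B → A * B ≤ X → 1 ≤ G →
    ClassG α X G → (∀ a, α a ≠ 0 → A < (N a : ℝ) ∧ (N a : ℝ) ≤ 2 * A) →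
    ∀ (l : ℕ) (S : Finset ℕ), ∑ s ∈ S, NCf (blk α l s) A B ≤
      C * G ^ 2 * A ^ (5 / 3 : ℝ) * B ^ (2 / 3 : ℝ) / Real.log X ^ A'' := by
  obtain ⟨Cg, hCg, hgen⟩ := NCf_family
  obtain ⟨Cs, Cw, hCs, hCw, hsmall⟩ := fam_small hδ A''
  obtain ⟨Ca, hCa, hall⟩ := fam_all (show 0 < δ / 2 by positivity)
  obtain ⟨Ct, hCt, htail⟩ := fam_tail (show 0 < δ / 8 by positivity)
  set W : ℝ := ((A'' + 1) / (δ * (δ / 2))) ^ A'' with hW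
  have hW0 : 0 ≤ W := by positivity
  refine ⟨max 3 ((2 : ℝ) ^ (1 / δ)), Cg * (Cs + Ca + 24 * Ct * W), le_max_left _ _,
    by positivity, ?_⟩
  intro X A B G α hX hA hB hAB hG hα hs l S
  have hX3 : 3 ≤ X := (le_max_left _ _).trans hX
  have hX0 : 0 < X := by linarith
  have hL1 := one_le_log hX3
  set L := Real.log X with hL
  have hL0 : 0 < L := by linarith
  have hA2 : 2 ≤ A := by
    calc (2 : ℝ) = ((2 : ℝ) ^ (1 / δ)) ^ δ := by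
          rw [← Real.rpow_mul (by norm_num), one_div_mul_cancel hδ.ne', Real.rpow_one]
      _ ≤ X ^ δ := Real.rpow_le_rpow (by positivity) ((le_max_right _ _).trans hX) hδ.le
      _ ≤ A := hA
  have hA0 : 0 < A := by linarith
  have hA1 : 1 ≤ A := by linarith
  have hAB' : A ≤ B := by
    calc A = A ^ (1 : ℝ) := (Real.rpow_one A).symm
      _ ≤ A ^ (1 + δ) := Real.rpow_le_rpow_of_exponent_le hA1 (by linarith)
      _ ≤ B := hB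
  have hB0 : 0 < B := by linarith
  have hAX : 2 * A ≤ X := by nlinarith
  have hG0 : 0 ≤ G ^ 2 := by positivity
  set K := A ^ 2 / B with hK
  have hK0 : 0 < K := by positivity
  have hKA : K ≤ A ^ (1 - δ) := by
    rw [hK, div_le_iff₀ hB0]
    calc A ^ 2 = A ^ (1 - δ) * A ^ (1 + δ) := by
          rw [← Real.rpow_add hA0, ← Real.rpow_natCast]; congr 1; push_cast; ring
      _ ≤ _ := by gcongr
  set H0 : ℝ := (2 * A) ^ (1 - δ / 2) with hH0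
  have hH0pos : 0 < H0 := by positivity
  have h2K : 2 * K ≤ H0 := by
    have e1 : H0 = 2 ^ (1 - δ / 2) * A ^ (1 - δ / 2) := Real.mul_rpow (by norm_num) hA0.le
    have e2 : (2 : ℝ) = 2 ^ (1 - δ / 2) * 2 ^ (δ / 2) := by
      rw [← Real.rpow_add (by norm_num)]; norm_num
    calc 2 * K ≤ 2 * A ^ (1 - δ) := by gcongr
      _ = 2 ^ (1 - δ / 2) * 2 ^ (δ / 2) * A ^ (1 - δ) := by rw [← e2]
      _ ≤ 2 ^ (1 - δ / 2) * A ^ (δ / 2) * A ^ (1 - δ) := by gcongr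
      _ = 2 ^ (1 - δ / 2) * (A ^ (δ / 2) * A ^ (1 - δ)) := by ring
      _ = H0 := by rw [← Real.rpow_add hA0, e1]; congr 2; ring
  set P1 : ℝ := Cs * G ^ 2 / L ^ A'' * A ^ 2 with hP1
  set P0 : ℝ := Ca * G ^ 2 / L ^ A'' * A ^ 2 with hP0
  set F0 : ℝ := Ct * G ^ 2 * ((2 * A * H0) ^ (δ / 8) * (2 * A * H0 +
    (2 * A) ^ 2 * H0 ^ (1 / 3 : ℝ) + (2 * A) ^ (5 / 3 : ℝ) * H0 ^ (2 / 3 : ℝ))) with hF0
  have hσ' : ∀ σ : ℝ, (σ = -(1 / 3) ∨ σ = 3 / 2) → σ ≤ 3 / 2 := by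
    rintro σ (rfl | rfl) <;> norm_num
  have key := hgen A B H0 P0 P1 F0 S (fun s => blk α l s) hA0 hB0 (by positivity) (by positivity)
    (by positivity) hH0pos h2K ?_ ?_
  · refine key.trans ?_
    -- final arithmetic
    have hBA : (B / A) * (A ^ 2 * K ^ (1 / 3 : ℝ)) = A ^ (5 / 3 : ℝ) * B ^ (2 / 3 : ℝ) := by
      rw [hK, Real.div_rpow (by positivity) hB0.le, ← Real.rpow_natCast A 2,
        ← Real.rpow_mul hA0.le]
      have e1 : B ^ (2 / 3 : ℝ) = B / B ^ (1 / 3 : ℝ) := by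
        rw [eq_div_iff (by positivity), ← Real.rpow_add hB0]; norm_num
      have e2 : A ^ (5 / 3 : ℝ) = A ^ (((2 : ℕ) : ℝ)) * A ^ (((2 : ℕ) : ℝ) * (1 / 3)) / A := by
        rw [eq_div_iff hA0.ne', ← Real.rpow_add hA0, ← Real.rpow_add_one hA0.ne']
        norm_num
      rw [e1, e2]
      ring
    have hT : F0 * (K / H0) ^ 2 ≤ 24 * Ct * W * G ^ 2 / L ^ A'' * (A ^ 2 * K ^ (1 / 3 : ℝ)) := by
      have h1 := tail_arith hA2 hδ hδ1 hK0 hKA hH0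
      have h2 : A ^ (-(δ / 2)) * L ^ A'' ≤ W := by
        have h3 : L ^ A'' ≤ W * X ^ (δ * (δ / 2)) := log_pow_le (by positivity) A'' (by linarith)
        have h4 : A ^ (-(δ / 2)) ≤ X ^ (-(δ * (δ / 2))) := by
          calc A ^ (-(δ / 2)) ≤ (X ^ δ) ^ (-(δ / 2)) :=
                Real.rpow_le_rpow_of_nonpos (by positivity) hA (by linarith)
            _ = X ^ (-(δ * (δ / 2))) := by rw [← Real.rpow_mul hX0.le]; ring_nf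
        calc A ^ (-(δ / 2)) * L ^ A'' ≤ X ^ (-(δ * (δ / 2))) * (W * X ^ (δ * (δ / 2))) := by
              gcongr
          _ = W * (X ^ (-(δ * (δ / 2))) * X ^ (δ * (δ / 2))) := by ring
          _ = W := by rw [← Real.rpow_add hX0]; simp
      have h5 : A ^ (-(δ / 2)) ≤ W / L ^ A'' := by rwa [le_div_iff₀ (by positivity)]
      calc F0 * (K / H0) ^ 2 = Ct * G ^ 2 * ((2 * A * H0) ^ (δ / 8) * (2 * A * H0 +
            (2 * A) ^ 2 * H0 ^ (1 / 3 : ℝ) + (2 * A) ^ (5 / 3 : ℝ) * H0 ^ (2 / 3 : ℝ)) *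
            (K / H0) ^ 2) := by rw [hF0]; ring
        _ ≤ Ct * G ^ 2 * (24 * A ^ 2 * K ^ (1 / 3 : ℝ) * A ^ (-(δ / 2))) := by gcongr
        _ ≤ Ct * G ^ 2 * (24 * A ^ 2 * K ^ (1 / 3 : ℝ) * (W / L ^ A'')) := by gcongr
        _ = _ := by ring
    have hPP : (P1 + P0) * K ^ (1 / 3 : ℝ) =
        (Cs + Ca) * G ^ 2 / L ^ A'' * (A ^ 2 * K ^ (1 / 3 : ℝ)) := by
      rw [hP1, hP0]; ring
    calc Cg * ((B / A) * ((P1 + P0) * K ^ (1 / 3 : ℝ) + F0 * (K / H0) ^ 2))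
        ≤ Cg * ((B / A) * ((Cs + Ca) * G ^ 2 / L ^ A'' * (A ^ 2 * K ^ (1 / 3 : ℝ)) +
          24 * Ct * W * G ^ 2 / L ^ A'' * (A ^ 2 * K ^ (1 / 3 : ℝ)))) := by
          rw [hPP]; gcongr
      _ = Cg * (Cs + Ca + 24 * Ct * W) * G ^ 2 / L ^ A'' *
          ((B / A) * (A ^ 2 * K ^ (1 / 3 : ℝ))) := by ring
      _ = _ := by rw [hBA]; ring
  · intro σ hσ t H hH1 hH2
    have hH : 0 ≤ H ^ (1 / 3 : ℝ) := by positivity
    have ht0 : 0 ≤ (1 + t ^ 2) ^ (1 / 4 : ℝ) := by positivity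
    rcases le_or_gt |t| (L ^ Cw) with ht | ht
    · have h1 := hsmall X A G σ t α hX3 hA hA1 hAX hG (hσ' σ hσ) hα hs ht l S H hH1 hH2
      refine h1.trans ?_
      have h2 : 0 ≤ P0 * (1 + t ^ 2) ^ (1 / 4 : ℝ) := by positivity
      calc Cs * G ^ 2 / L ^ A'' * (A ^ 2 * H ^ (1 / 3 : ℝ)) = P1 * H ^ (1 / 3 : ℝ) := by
            rw [hP1]; ring
        _ ≤ _ := by
            gcongr
            linarith
    · have h1 := hall X A G σ t α hX3 hA1 hAX hG (hσ' σ hσ) hα hs l S H hH1 hH2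
      refine h1.trans ?_
      have h3 : L ^ (A'' + 3) ≤ (1 + t ^ 2) ^ (1 / 4 : ℝ) := by
        have h4 : (L ^ Cw) ^ 2 ≤ 1 + t ^ 2 := by
          have : (L ^ Cw) ^ 2 ≤ |t| ^ 2 := by gcongr
          rw [sq_abs] at this
          linarith
        have h5 : (L ^ (A'' + 3)) ^ 4 ≤ 1 + t ^ 2 := by
          refine le_trans ?_ h4
          rw [← pow_mul, ← pow_mul]
          exact pow_le_pow_right₀ hL1 (by omega)
        calc L ^ (A'' + 3) = ((L ^ (A'' + 3)) ^ 4) ^ (1 / 4 : ℝ) := by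
              rw [← Real.rpow_natCast (L ^ (A'' + 3)) 4, ← Real.rpow_mul (by positivity)]
              norm_num
          _ ≤ _ := Real.rpow_le_rpow (by positivity) h5 (by norm_num)
      have h6 : 0 ≤ P1 := by positivity
      calc Ca * G ^ 2 * L ^ 3 * (A ^ 2 * H ^ (1 / 3 : ℝ))
          = (Ca * G ^ 2 / L ^ A'' * A ^ 2) * L ^ (A'' + 3) * H ^ (1 / 3 : ℝ) := by
            rw [pow_add]; field_simp
        _ ≤ P0 * (1 + t ^ 2) ^ (1 / 4 : ℝ) * H ^ (1 / 3 : ℝ) := by gcongr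
        _ ≤ _ := by
            gcongr
            linarith
  · intro σ hσ t H hH1 hH2
    have h1 := htail X A G σ t α hA1 hG (hσ' σ hσ) hα hs l S H hH1
    refine h1.trans ?_
    have h2 := tail_mono (A := A) (H0 := H0) (H := H) (ε := δ / 8) hA0 (by positivity)
      (by linarith) hH0pos hH2
    calc _ = Ct * G ^ 2 * ((2 * A * H) ^ (δ / 8) * (2 * A * H + (2 * A) ^ 2 * H ^ (1 / 3 : ℝ) +
          (2 * A) ^ (5 / 3 : ℝ) * H ^ (2 / 3 : ℝ))) := by ring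
      _ ≤ Ct * G ^ 2 * ((2 * A * H0) ^ (δ / 8) * (2 * A * H0 + (2 * A) ^ 2 * H0 ^ (1 / 3 : ℝ) +
          (2 * A) ^ (5 / 3 : ℝ) * H0 ^ (2 / 3 : ℝ)) * (H / H0) ^ (3 / 2 : ℝ)) := by gcongr
      _ = _ := by rw [hF0]; ring

end Vale.Agent.P006.DN
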