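import Vale.Agent.P006.DN.Defs
import Vale.Agent.P006.H845.Sums

/-!
P006, block DN (helper611): the off-diagonal error `E_M` is `≪ Y^{1+ε}`; elementary inequalities.
-/

namespace Vale.Agent.P006.DN

open Finset

/-- powers of the logarithm are smaller than powers -/
theorem log_pow_le {c : ℝ} (hc : 0 < c) (A : ℕ) {X : ℝ} (hX : 1 ≤ X) :
    Real.log X ^ A ≤ ((A + 1) / c) ^ A * X ^ c := by
  have hX0 : 0 < X := by linarith
  have hL := Real.log_nonneg hX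
  have h1 : Real.log X ≤ X ^ (c / (A + 1)) / (c / (A + 1)) :=
    Real.log_le_rpow_div hX0.le (by positivity)
  calc Real.log X ^ A ≤ (X ^ (c / (A + 1)) / (c / (A + 1))) ^ A := by gcongr
    _ = ((A + 1) / c) ^ A * X ^ (c / (A + 1) * A) := by
        rw [div_pow, ← Real.rpow_natCast (X ^ (c / (A + 1))), ← Real.rpow_mul hX0.le, div_pow,
          div_pow]
        field_simp
    _ ≤ ((A + 1) / c) ^ A * X ^ c := by
        refine mul_le_mul_of_nonneg_left (Real.rpow_le_rpow_of_exponent_le hX ?_) (by positivity)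
        rw [div_mul_eq_mul_div, div_le_iff₀ (by positivity)]
        nlinarith

/-- sum over fibres of squares is at most the square of the sum -/
theorem sum_sq_fiber_le {ι : Type*} (S : Finset ι) (T : Finset ℕ) (f : ι → ℕ) (g : ι → ℝ)
    (hg : ∀ i ∈ S, 0 ≤ g i) :
    ∑ s ∈ T, (∑ i ∈ S with f i = s, g i) ^ 2 ≤ (∑ i ∈ S, g i) ^ 2 := by
  have h0 : ∀ s, 0 ≤ ∑ i ∈ S with f i = s, g i := fun s =>
    sum_nonneg fun i hi => hg i (mem_filter.1 hi).1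
  have h1 : ∀ s, ∑ i ∈ S with f i = s, g i ≤ ∑ i ∈ S, g i := fun s =>
    sum_le_sum_of_subset_of_nonneg (filter_subset _ _) fun i hi _ => hg i hi
  have h2 : ∑ s ∈ T, ∑ i ∈ S with f i = s, g i ≤ ∑ i ∈ S, g i := by
    classical
    have h3 := sum_fiberwise_eq_sum_filter S T f g
    rw [h3]
    exact sum_le_sum_of_subset_of_nonneg (filter_subset _ _) fun i hi _ => hg i hi
  calc _ ≤ ∑ s ∈ T, (∑ i ∈ S, g i) * (∑ i ∈ S with f i = s, g i) := by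
        refine sum_le_sum fun s _ => ?_
        rw [pow_two]
        exact mul_le_mul_of_nonneg_right (h1 s) (h0 s)
    _ = (∑ i ∈ S, g i) * ∑ s ∈ T, ∑ i ∈ S with f i = s, g i := by rw [mul_sum]
    _ ≤ _ := by
        rw [pow_two]
        exact mul_le_mul_of_nonneg_left h2 (sum_nonneg hg)

theorem sum_inv_sqrt_le {Y : ℝ} (hY : 0 ≤ Y) :
    (∑ b ∈ PB Y, (Real.sqrt (N b))⁻¹) ^ 2 ≤ 64 * Y := by
  have e2 : ∀ b ∈ PB Y, (Real.sqrt (N b))⁻¹ = (N b : ℝ) ^ (-(1 / 2) : ℝ) := by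
    intro b _
    rw [Real.sqrt_eq_rpow, Real.rpow_neg (Nat.cast_nonneg _)]
  rw [sum_congr rfl e2]
  have h3 := sum_PB_rpow_neg_le (s := 1 / 2) (by norm_num) (by norm_num) hY
  have h4 : (0 : ℝ) ≤ ∑ b ∈ PB Y, (N b : ℝ) ^ (-(1 / 2) : ℝ) :=
    sum_nonneg fun _ _ => by positivity
  have h5 : (4 / (1 - 1 / 2) * Y ^ (1 - 1 / 2 : ℝ) : ℝ) = 8 * Real.sqrt Y := by
    rw [Real.sqrt_eq_rpow]; norm_num
  rw [h5] at h3
  calc _ ≤ (8 * Real.sqrt Y) ^ 2 := pow_le_pow_left₀ h4 h3 2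
    _ = 64 * Y := by rw [mul_pow, Real.sq_sqrt hY]; norm_num

theorem sum_inv_sqrt_multiples_le {Y : ℝ} {d : O} (hd : Primary d) (hY : 0 ≤ Y) :
    (N d : ℝ) * (∑ a ∈ (PB Y).filter (d ∣ ·), (Real.sqrt (N a))⁻¹) ^ 2 ≤
      64 * Y * (N d : ℝ)⁻¹ := by
  have hN : (1 : ℝ) ≤ N d := hd.one_le_N'
  have hN0 : (0 : ℝ) < N d := by linarith
  rw [sum_multiples_PB Y hd (fun a => (Real.sqrt (N a))⁻¹)]
  have e2 : ∀ b ∈ PB (Y / N d), (Real.sqrt (N (d * b)))⁻¹ =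
      (Real.sqrt (N d))⁻¹ * (Real.sqrt (N b))⁻¹ := by
    intro b _
    rw [N_mul, Nat.cast_mul, Real.sqrt_mul (Nat.cast_nonneg _), mul_inv]
  rw [sum_congr rfl e2, ← mul_sum, mul_pow, inv_pow, Real.sq_sqrt hN0.le, ← mul_assoc,
    mul_inv_cancel₀ hN0.ne', one_mul]
  refine (sum_inv_sqrt_le (by positivity)).trans (le_of_eq ?_)
  rw [div_eq_mul_inv]; ring

/-- `∑_{a,a'} (∑_{d | a, d | a'} N d) / √(N a N a') ≤ C Y (1 + log Y)` -/
theorem sum_gcd_le {Y : ℝ} (hY : 1 ≤ Y) :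
    ∑ a ∈ PB Y, ∑ a' ∈ PB Y, (∑ d ∈ dvs a ∩ dvs a', (N d : ℝ)) / Real.sqrt (N a * N a') ≤
      256 * Y * (1 + Real.log Y) := by
  classical
  have h1 : ∑ a ∈ PB Y, ∑ a' ∈ PB Y, (∑ d ∈ dvs a ∩ dvs a', (N d : ℝ)) / Real.sqrt (N a * N a') =
      ∑ d ∈ PB Y, (N d : ℝ) * (∑ a ∈ (PB Y).filter (d ∣ ·), (Real.sqrt (N a))⁻¹) ^ 2 := by
    have e1 : ∀ a ∈ PB Y, ∀ a' ∈ PB Y,
        (∑ d ∈ dvs a ∩ dvs a', (N d : ℝ)) / Real.sqrt (N a * N a') =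
        ∑ d ∈ PB Y, if d ∣ a ∧ d ∣ a' then
          (N d : ℝ) * ((Real.sqrt (N a))⁻¹ * (Real.sqrt (N a'))⁻¹) else 0 := by
      intro a ha a' ha'
      rw [mem_PB] at ha ha'
      rw [Real.sqrt_mul (Nat.cast_nonneg _), div_eq_mul_inv, mul_inv, sum_mul, ← sum_filter]
      refine sum_congr ?_ fun _ _ => rfl
      ext d
      rw [mem_inter, mem_dvs ha.1.ne_zero, mem_dvs ha'.1.ne_zero, mem_filter, mem_PB]
      constructor
      · rintro ⟨⟨h1, h2⟩, _, h3⟩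
        refine ⟨⟨h1, ?_⟩, h2, h3⟩
        have : N d ≤ N a := Nat.le_of_dvd ha.1.one_le_N (N_dvd_N h2)
        exact le_trans (by exact_mod_cast this) ha.2
      · rintro ⟨⟨h1, _⟩, h2, h3⟩
        exact ⟨⟨h1, h2⟩, h1, h3⟩
    rw [sum_congr rfl fun a ha => sum_congr rfl fun a' ha' => e1 a ha a' ha']
    rw [sum_congr rfl fun a _ => sum_comm, sum_comm]
    refine sum_congr rfl fun d _ => ?_
    rw [pow_two, sum_mul_sum, mul_sum, sum_filter]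
    refine sum_congr rfl fun a _ => ?_
    by_cases h : d ∣ a
    · rw [if_pos h, mul_sum, sum_filter]
      exact sum_congr rfl fun a' _ => by simp only [h, true_and]
    · rw [if_neg h]
      exact sum_eq_zero fun a' _ => by simp only [h, false_and, if_false]
  rw [h1]
  have h2 : ∀ d ∈ PB Y, (N d : ℝ) * (∑ a ∈ (PB Y).filter (d ∣ ·), (Real.sqrt (N a))⁻¹) ^ 2 ≤
      64 * Y * (N d : ℝ)⁻¹ := fun d hd => sum_inv_sqrt_multiples_le (mem_PB.1 hd).1 (by linarith)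
  calc _ ≤ ∑ d ∈ PB Y, 64 * Y * (N d : ℝ)⁻¹ := sum_le_sum h2
    _ = 64 * Y * ∑ d ∈ PB Y, (N d : ℝ)⁻¹ := by rw [mul_sum]
    _ ≤ 64 * Y * (4 * (1 + Real.log Y)) := by
        gcongr
        exact sum_inv_PB_le hY
    _ = _ := by ring

theorem EMf_nonneg (α : O → ℂ) (Y : ℝ) (l : ℕ) : 0 ≤ EMf α Y l := by
  refine sum_nonneg fun _ _ => sum_nonneg fun _ _ => ?_
  split_ifs
  · have : (0 : ℝ) ≤ ∑ d ∈ dvs ‹O› ∩ dvs ‹O›, (N d : ℝ) := sum_nonneg fun _ _ => by positivity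
    positivity
  · exact le_rfl

/-- `E_M ≪ G² Y^{1+ε}` -/
theorem EMf_le {ε : ℝ} (hε : 0 < ε) : ∃ C : ℝ, 0 ≤ C ∧ ∀ Y G : ℝ, 1 ≤ Y → 0 ≤ G →
    ∀ (α : O → ℂ) (l : ℕ), (∀ a, ‖α a‖ ≤ G) → EMf α Y l ≤ C * G ^ 2 * Y ^ (1 + ε) := by
  classical
  obtain ⟨Cτ, hCτ, hτ⟩ := exists_tau_le (show 0 < ε / 4 by positivity)
  refine ⟨Cτ ^ 2 * (256 * (1 + 2 / ε)), by positivity, fun Y G hY hG α l hα => ?_⟩
  have hY0 : 0 < Y := by linarith
  have h1 : EMf α Y l ≤ ∑ a ∈ PB Y, ∑ a' ∈ PB Y,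
      (G ^ 2 * Cτ ^ 2 * Y ^ (ε / 2)) *
        ((∑ d ∈ dvs a ∩ dvs a', (N d : ℝ)) / Real.sqrt (N a * N a')) := by
    have hnn : ∀ a a' : O, 0 ≤ (∑ d ∈ dvs a ∩ dvs a', (N d : ℝ)) / Real.sqrt (N a * N a') :=
      fun a a' => div_nonneg (sum_nonneg fun _ _ => by positivity) (Real.sqrt_nonneg _)
    have hc : 0 ≤ G ^ 2 * Cτ ^ 2 * Y ^ (ε / 2) := by positivity
    have hterm : ∀ a ∈ SPB Y, ∀ a' ∈ SPB Y,
        (if a ≠ a' ∧ N a / 2 ^ l = N a' / 2 ^ l then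
          ‖α a‖ * ‖α a'‖ * (∑ d ∈ dvs a ∩ dvs a', (N d : ℝ)) / Real.sqrt (N a * N a') *
          (tau a * tau a') else 0) ≤ (G ^ 2 * Cτ ^ 2 * Y ^ (ε / 2)) *
        ((∑ d ∈ dvs a ∩ dvs a', (N d : ℝ)) / Real.sqrt (N a * N a')) := by
      intro a ha a' ha'
      rw [mem_SPB] at ha ha'
      split_ifs
      · have t1 : (tau a : ℝ) ≤ Cτ * Y ^ (ε / 4) := (hτ a ha.1.1).trans (by
          gcongr; exact ha.1.2)
        have t2 : (tau a' : ℝ) ≤ Cτ * Y ^ (ε / 4) := (hτ a' ha'.1.1).trans (by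
          gcongr; exact ha'.1.2)
        have t3 : ‖α a‖ * ‖α a'‖ ≤ G ^ 2 := by
          rw [pow_two]; exact mul_le_mul (hα a) (hα a') (norm_nonneg _) hG
        have t4 : (tau a : ℝ) * tau a' ≤ Cτ ^ 2 * Y ^ (ε / 2) := by
          calc (tau a : ℝ) * tau a' ≤ (Cτ * Y ^ (ε / 4)) * (Cτ * Y ^ (ε / 4)) := by gcongr
            _ = Cτ ^ 2 * (Y ^ (ε / 4) * Y ^ (ε / 4)) := by ring
            _ = _ := by rw [← Real.rpow_add hY0]; ring_nf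
        calc ‖α a‖ * ‖α a'‖ * (∑ d ∈ dvs a ∩ dvs a', (N d : ℝ)) / Real.sqrt (N a * N a') *
              (tau a * tau a')
            = (‖α a‖ * ‖α a'‖) * (tau a * tau a') *
              ((∑ d ∈ dvs a ∩ dvs a', (N d : ℝ)) / Real.sqrt (N a * N a')) := by ring
          _ ≤ (G ^ 2) * (Cτ ^ 2 * Y ^ (ε / 2)) *
              ((∑ d ∈ dvs a ∩ dvs a', (N d : ℝ)) / Real.sqrt (N a * N a')) := by
              have := hnn a a'
              gcongr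
          _ = _ := by ring
      · exact mul_nonneg hc (hnn a a')
    have hsub : SPB Y ⊆ PB Y := SPB_subset_PB
    calc EMf α Y l ≤ ∑ a ∈ SPB Y, ∑ a' ∈ SPB Y, (G ^ 2 * Cτ ^ 2 * Y ^ (ε / 2)) *
        ((∑ d ∈ dvs a ∩ dvs a', (N d : ℝ)) / Real.sqrt (N a * N a')) :=
          sum_le_sum fun a ha => sum_le_sum fun a' ha' => hterm a ha a' ha'
      _ ≤ ∑ a ∈ SPB Y, ∑ a' ∈ PB Y, (G ^ 2 * Cτ ^ 2 * Y ^ (ε / 2)) *
        ((∑ d ∈ dvs a ∩ dvs a', (N d : ℝ)) / Real.sqrt (N a * N a')) :=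
          sum_le_sum fun a _ => sum_le_sum_of_subset_of_nonneg hsub fun a' _ _ =>
            mul_nonneg hc (hnn a a')
      _ ≤ _ := sum_le_sum_of_subset_of_nonneg hsub fun a _ _ =>
          sum_nonneg fun a' _ => mul_nonneg hc (hnn a a')
  simp only [← mul_sum] at h1
  have h2 := sum_gcd_le hY
  have h3 : 1 + Real.log Y ≤ (1 + 2 / ε) * Y ^ (ε / 2) := by
    have h4 : Real.log Y ≤ Y ^ (ε / 2) / (ε / 2) := Real.log_le_rpow_div hY0.le (by positivity)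
    have h5 : 1 ≤ Y ^ (ε / 2) := Real.one_le_rpow hY (by positivity)
    calc 1 + Real.log Y ≤ Y ^ (ε / 2) + Y ^ (ε / 2) / (ε / 2) := by linarith
      _ = _ := by field_simp
  calc EMf α Y l ≤ _ := h1
    _ ≤ (G ^ 2 * Cτ ^ 2 * Y ^ (ε / 2)) * (256 * Y * ((1 + 2 / ε) * Y ^ (ε / 2))) := by
        gcongr
        exact h2.trans (by gcongr)
    _ = Cτ ^ 2 * (256 * (1 + 2 / ε)) * G ^ 2 * (Y * (Y ^ (ε / 2) * Y ^ (ε / 2))) := by ring
    _ = _ := by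
        rw [← Real.rpow_add hY0, add_halves, Real.rpow_add hY0, Real.rpow_one]

end Vale.Agent.P006.DN
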