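import Vale.Agent.P006.H103.Mem

/-!
P006, block DN (helper611): the class `ClassG` is stable under restriction to norm intervals.
-/

namespace Vale.Agent.P006

open Finset VR

theorem VR.BV.mul {u v : ℕ → ℂ} {G H : ℝ} (hu : BV u G) (hv : BV v H) :
    BV (fun n => u n * v n) (2 * G * H) := by
  intro n
  have hG := hu.nonneg
  have hH := hv.nonneg
  have h1 : ∑ j ∈ range n, ‖u j * v j - u (j + 1) * v (j + 1)‖ ≤
      G * ∑ j ∈ range n, ‖v j - v (j + 1)‖ + H * ∑ j ∈ range n, ‖u j - u (j + 1)‖ := by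
    rw [mul_sum, mul_sum, ← sum_add_distrib]
    refine sum_le_sum fun j _ => ?_
    have e : u j * v j - u (j + 1) * v (j + 1) =
        u j * (v j - v (j + 1)) + v (j + 1) * (u j - u (j + 1)) := by ring
    rw [e]
    refine (norm_add_le _ _).trans ?_
    rw [norm_mul, norm_mul]
    have a1 := hu.norm_le j
    have a2 := hv.norm_le (j + 1)
    gcongr
  have h2 := hu n
  have h3 := hv n
  have h4 : ‖u n * v n‖ ≤ G * ‖v n‖ := by
    rw [norm_mul]
    exact mul_le_mul_of_nonneg_right (hu.norm_le n) (norm_nonneg _)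
  have h5 : 0 ≤ ‖u n‖ := norm_nonneg _
  calc ‖u n * v n‖ + ∑ j ∈ range n, ‖u j * v j - u (j + 1) * v (j + 1)‖
      ≤ G * ‖v n‖ + (G * ∑ j ∈ range n, ‖v j - v (j + 1)‖ +
          H * ∑ j ∈ range n, ‖u j - u (j + 1)‖) := add_le_add h4 h1
    _ = G * (‖v n‖ + ∑ j ∈ range n, ‖v j - v (j + 1)‖) +
          H * ∑ j ∈ range n, ‖u j - u (j + 1)‖ := by ring
    _ ≤ G * H + H * G := by
        gcongr
        linarith
    _ = _ := by ring

theorem ClassG.nonneg {α : O → ℂ} {X G : ℝ} (h : ClassG α X G) : 0 ≤ G :=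
  (norm_nonneg _).trans (h.bound 0)

theorem ClassG.mono {α : O → ℂ} {X G X' G' : ℝ} (h : ClassG α X G) (hX : X ≤ X') (hG : G ≤ G') :
    ClassG α X' G' where
  supp := fun a ha => ⟨(h.supp a ha).1, (h.supp a ha).2.1, (h.supp a ha).2.2.trans hX⟩
  bound := fun a => (h.bound a).trans hG
  str := fun m hm => by
    obtain ⟨v, h1, h2⟩ := h.str m hm
    exact ⟨v, fun n => (h1 n).trans hG, h2⟩

open Classical in
/-- restriction to a norm interval -/
theorem ClassG.interval {α : O → ℂ} {X G : ℝ} (h : ClassG α X G) (y₁ y₂ : ℝ) :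
    ClassG (fun a => if y₁ < (N a : ℝ) ∧ (N a : ℝ) ≤ y₂ then α a else 0) X (4 * G) := by
  have hG := h.nonneg
  refine ⟨?_, ?_, ?_⟩
  · intro a ha
    have : α a ≠ 0 := by
      intro h0
      apply ha
      simp only [h0, ite_self]
    exact h.supp a this
  · intro a
    have := h.bound a
    split_ifs
    · linarith
    · rw [norm_zero]; positivity
  · intro m hm
    obtain ⟨v, h1, h2⟩ := h.str m hm
    have hv : BV v G := h1
    have hI := BV_int (z := 0) (y₁ := y₁) (y₂ := y₂) (M := 1) hm (g := fun _ => 1) (by simp)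
      (by simp) (by norm_num) (fun _ => le_rfl) (fun _ => True) (fun _ _ => trivial)
    have hb := hv.mul hI
    refine ⟨_, hb.mono (by linarith), fun p hp hpp hq => ?_⟩
    rw [N_mul, h2 p hp hpp hq]
    push_cast
    have h0 : (0 : ℝ) ≤ (N p : ℝ) := Nat.cast_nonneg _
    by_cases hc : y₁ < (N m : ℝ) * N p ∧ (N m : ℝ) * N p ≤ y₂
    · rw [if_pos hc, if_pos ⟨⟨h0, hc.1, hc.2⟩, trivial⟩]
      simp
    · rw [if_neg hc, if_neg (by rintro ⟨⟨_, h3, h4⟩, _⟩; exact hc ⟨h3, h4⟩)]
      simp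

end Vale.Agent.P006
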