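import Vale.Agent.P006.DN.EM
import Vale.Agent.P006.DN.Cls
import Vale.Agent.P006.H611.TIIRed
import Vale.Agent.P006.Main.Defs

/-!
P006, block DN (helper611): bounds of the block sums `FS` (trivial bound, large sieve bound,
identification with `FamS`).
-/

namespace Vale.Agent.P006.DN

open Finset H611

theorem FS_le_trivial {D : O → O → ℂ} {α : O → ℂ} {i j l : ℕ} {G M : ℝ} (hG : 0 ≤ G)
    (hM0 : 0 ≤ M) (hM : ∀ a ∈ DB i, ∀ b ∈ DB j, ‖D a b‖ ≤ M) (hα : ∀ a, ‖α a‖ ≤ G) :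
    FS D α i j l ≤ 8 * 2 ^ j * (8 * 2 ^ i * (G * M)) ^ 2 := by
  rw [FS, sum_comm]
  have h1 : ∀ b ∈ DB j, ∑ s ∈ range (2 ^ (i + 1)),
      ‖∑ a ∈ DB i with N a / 2 ^ l = s, α a * D a b‖ ^ 2 ≤ (8 * 2 ^ i * (G * M)) ^ 2 := by
    intro b hb
    calc _ ≤ ∑ s ∈ range (2 ^ (i + 1)), (∑ a ∈ DB i with N a / 2 ^ l = s, ‖α a * D a b‖) ^ 2 :=
          sum_le_sum fun s _ => by
            gcongr
            exact norm_sum_le _ _
      _ ≤ (∑ a ∈ DB i, ‖α a * D a b‖) ^ 2 :=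
          sum_sq_fiber_le _ _ (fun a => N a / 2 ^ l) _ fun _ _ => norm_nonneg _
      _ ≤ (∑ a ∈ DB i, G * M) ^ 2 := by
          gcongr with a ha
          rw [norm_mul]
          exact mul_le_mul (hα a) (hM a ha b hb) (norm_nonneg _) hG
      _ = ((DB i).card * (G * M)) ^ 2 := by rw [sum_const, nsmul_eq_mul]
      _ ≤ _ := by
          gcongr
          exact card_DB_le i
  calc _ ≤ ∑ b ∈ DB j, (8 * 2 ^ i * (G * M)) ^ 2 := sum_le_sum h1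
    _ = (DB j).card * (8 * 2 ^ i * (G * M)) ^ 2 := by rw [sum_const, nsmul_eq_mul]
    _ ≤ _ := by
        gcongr
        exact card_DB_le j

theorem FS_sub_le {D D₁ D₂ : O → O → ℂ} {α : O → ℂ} {i j l : ℕ}
    (h : ∀ a ∈ DB i, ∀ b ∈ DB j, D a b = D₁ a b - D₂ a b) :
    FS D α i j l ≤ 2 * FS D₁ α i j l + 2 * FS D₂ α i j l := by
  rw [FS, FS, FS, mul_sum, mul_sum, ← sum_add_distrib]
  refine sum_le_sum fun s _ => ?_
  rw [mul_sum, mul_sum, ← sum_add_distrib]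
  refine sum_le_sum fun b hb => ?_
  have e : ∑ a ∈ DB i with N a / 2 ^ l = s, α a * D a b =
      ∑ a ∈ DB i with N a / 2 ^ l = s, α a * D₁ a b -
        ∑ a ∈ DB i with N a / 2 ^ l = s, α a * D₂ a b := by
    rw [← sum_sub_distrib]
    refine sum_congr rfl fun a ha => ?_
    rw [h a (mem_filter.1 ha).1 b hb]; ring
  rw [e]
  set x := ∑ a ∈ DB i with N a / 2 ^ l = s, α a * D₁ a b
  set y := ∑ a ∈ DB i with N a / 2 ^ l = s, α a * D₂ a b
  have h1 : ‖x - y‖ ≤ ‖x‖ + ‖y‖ := norm_sub_le _ _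
  calc ‖x - y‖ ^ 2 ≤ (‖x‖ + ‖y‖) ^ 2 := by gcongr
    _ ≤ _ := by nlinarith [sq_nonneg (‖x‖ - ‖y‖)]

/-- the Gauss sum part of the kernel -/
noncomputable def Dg (a b : O) : ℂ := (starRingEnd ℂ) (toC (sym a b)) * gt 1 a * gt 1 b

open Classical in
/-- the model part of the kernel -/
noncomputable def Dm (a b : O) : ℂ :=
  if IsCoprime a b then
    ((cStar * (N a : ℝ) ^ (-(1 / 6) : ℝ) * (N b : ℝ) ^ (-(1 / 6) : ℝ) : ℝ) : ℂ) else 0

theorem wf_mul_eq {a b : O} (ha : InP a) (hb : InP b) : wf (a * b) = Dg a b - Dm a b := by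
  by_cases h : IsCoprime a b
  · rw [wf_mul ha hb h, Dg, Dm, if_pos h]
  · rw [wf_mul_of_not_coprime ha.1 hb.1 h, Dg, Dm, if_neg h, sym_eq_zero.2 h]
    simp

theorem inP_of_mem_DB {i : ℕ} {a : O} (h : a ∈ DB i) : InP a := ⟨(mem_DB.1 h).1, (mem_DB.1 h).2.1⟩

theorem norm_Dm_le {i j : ℕ} {a b : O} (ha : a ∈ DB i) (hb : b ∈ DB j) :
    ‖Dm a b‖ ≤ ((2 : ℝ) ^ i) ^ (-(1 / 6) : ℝ) * ((2 : ℝ) ^ j) ^ (-(1 / 6) : ℝ) := by
  have h1 : ((N a : ℝ)) ^ (-(1 / 6) : ℝ) ≤ ((2 : ℝ) ^ i) ^ (-(1 / 6) : ℝ) := by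
    apply Real.rpow_le_rpow_of_nonpos (by positivity) _ (by norm_num)
    have := (DB_bounds ha).1
    exact_mod_cast this
  have h2 : ((N b : ℝ)) ^ (-(1 / 6) : ℝ) ≤ ((2 : ℝ) ^ j) ^ (-(1 / 6) : ℝ) := by
    apply Real.rpow_le_rpow_of_nonpos (by positivity) _ (by norm_num)
    have := (DB_bounds hb).1
    exact_mod_cast this
  have hc := cStar_pos
  have hc1 := cStar_le_one
  rw [Dm]
  split_ifs
  · rw [Complex.norm_real, Real.norm_of_nonneg (by positivity)]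
    calc cStar * (N a : ℝ) ^ (-(1 / 6) : ℝ) * (N b : ℝ) ^ (-(1 / 6) : ℝ) ≤
        1 * ((2 : ℝ) ^ i) ^ (-(1 / 6) : ℝ) * ((2 : ℝ) ^ j) ^ (-(1 / 6) : ℝ) := by gcongr
      _ = _ := by ring
  · rw [norm_zero]; positivity

/-- the large sieve bound of the Gauss sum part -/
theorem FS_Dg_le {α : O → ℂ} {i j l : ℕ} {Bd : ℝ} (hBd : 0 ≤ Bd)
    (hLS : ∀ c : O → ℂ, ∑ n ∈ SPB (2 ^ (j + 1)), ‖∑ k ∈ SPB (2 ^ (i + 1)),
      c k * toC (sym k n)‖ ^ 2 ≤ Bd * ∑ k ∈ SPB (2 ^ (i + 1)), ‖c k‖ ^ 2) :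
    FS Dg α i j l ≤ Bd * ∑ a ∈ DB i, ‖α a‖ ^ 2 := by
  classical
  have hsub : ∀ i, DB i ⊆ SPB (2 ^ (i + 1)) := fun i => filter_subset _ _
  rw [FS]
  have h1 : ∀ s ∈ range (2 ^ (i + 1)),
      ∑ b ∈ DB j, ‖∑ a ∈ DB i with N a / 2 ^ l = s, α a * Dg a b‖ ^ 2 ≤
      Bd * ∑ a ∈ DB i with N a / 2 ^ l = s, ‖α a‖ ^ 2 := by
    intro s _
    set c : O → ℂ := fun k => if k ∈ (DB i).filter (fun a => N a / 2 ^ l = s) then
      (starRingEnd ℂ) (α k * gt 1 k) else 0 with hc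
    have hF : (DB i).filter (fun a => N a / 2 ^ l = s) ⊆ SPB (2 ^ (i + 1)) :=
      (filter_subset _ _).trans (hsub i)
    have e1 : ∀ b ∈ DB j, ‖∑ a ∈ DB i with N a / 2 ^ l = s, α a * Dg a b‖ ^ 2 =
        ‖∑ k ∈ SPB (2 ^ (i + 1)), c k * toC (sym k b)‖ ^ 2 := by
      intro b hb
      have e2 : ∑ k ∈ SPB (2 ^ (i + 1)), c k * toC (sym k b) =
          ∑ a ∈ DB i with N a / 2 ^ l = s, (starRingEnd ℂ) (α a * gt 1 a) * toC (sym a b) := by
        symm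
        refine sum_subset_zero_on_sdiff hF ?_ ?_
        · intro k hk
          rw [hc]; simp only
          rw [if_neg (mem_sdiff.1 hk).2, zero_mul]
        · intro k hk
          rw [hc]; simp only
          rw [if_pos hk]
      have e3 : ∑ a ∈ DB i with N a / 2 ^ l = s, α a * Dg a b =
          gt 1 b * (starRingEnd ℂ) (∑ a ∈ DB i with N a / 2 ^ l = s,
            (starRingEnd ℂ) (α a * gt 1 a) * toC (sym a b)) := by
        rw [map_sum, mul_sum]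
        refine sum_congr rfl fun a _ => ?_
        rw [map_mul, Complex.conj_conj, Dg]; ring
      rw [e2, e3, norm_mul, norm_gt_one (inP_of_mem_DB hb), one_mul, RCLike.norm_conj]
    rw [sum_congr rfl e1]
    calc _ ≤ ∑ n ∈ SPB (2 ^ (j + 1)), ‖∑ k ∈ SPB (2 ^ (i + 1)), c k * toC (sym k n)‖ ^ 2 :=
          sum_le_sum_of_subset_of_nonneg (hsub j) fun _ _ _ => by positivity
      _ ≤ _ := hLS c
      _ = _ := by
          congr 1
          symm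
          refine sum_subset_zero_on_sdiff hF ?_ ?_
          · intro k hk
            rw [hc]; simp only
            rw [if_neg (mem_sdiff.1 hk).2, norm_zero]; norm_num
          · intro k hk
            rw [hc]; simp only
            have hk' : k ∈ DB i := (mem_filter.1 hk).1
            rw [if_pos hk, RCLike.norm_conj, norm_mul, norm_gt_one (inP_of_mem_DB hk'), mul_one]
  calc _ ≤ ∑ s ∈ range (2 ^ (i + 1)), Bd * ∑ a ∈ DB i with N a / 2 ^ l = s, ‖α a‖ ^ 2 :=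
        sum_le_sum h1
    _ = Bd * ∑ s ∈ range (2 ^ (i + 1)), ∑ a ∈ DB i with N a / 2 ^ l = s, ‖α a‖ ^ 2 := by
        rw [mul_sum]
    _ ≤ _ := by
        refine mul_le_mul_of_nonneg_left ?_ hBd
        rw [sum_fiberwise_eq_sum_filter]
        exact sum_le_sum_of_subset_of_nonneg (filter_subset _ _) fun _ _ _ => by positivity

theorem sum_DB_sq_le {α : O → ℂ} {G : ℝ} (hα : ∀ a, ‖α a‖ ≤ G) (i : ℕ) :
    ∑ a ∈ DB i, ‖α a‖ ^ 2 ≤ 8 * 2 ^ i * G ^ 2 := by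
  calc ∑ a ∈ DB i, ‖α a‖ ^ 2 ≤ ∑ a ∈ DB i, G ^ 2 := by
        gcongr with a ha
        exact hα a
    _ = (DB i).card * G ^ 2 := by rw [sum_const, nsmul_eq_mul]
    _ ≤ _ := by
        gcongr
        exact card_DB_le i

/-- `DB j` as a half-integer norm interval -/
theorem mem_DB_iff {j : ℕ} {b : O} : b ∈ DB j ↔
    Primary b ∧ Squarefree b ∧ ((2 : ℝ) ^ j - 1 / 2) < N b ∧ (N b : ℝ) ≤ 2 * ((2 : ℝ) ^ j - 1 / 2) := by
  constructor
  · intro h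
    have h1 := DB_bounds h
    rw [mem_DB] at h
    refine ⟨h.1, h.2.1, ?_, ?_⟩
    · have : ((2 ^ j : ℕ) : ℝ) ≤ N b := by exact_mod_cast h1.1
      push_cast at this
      linarith
    · have : ((N b + 1 : ℕ) : ℝ) ≤ ((2 ^ (j + 1) : ℕ) : ℝ) := by exact_mod_cast h1.2
      push_cast at this
      rw [pow_succ] at this
      linarith
  · rintro ⟨h1, h2, h3, h4⟩
    rw [mem_DB]
    refine ⟨h1, h2, ?_⟩
    rw [Nat.log_eq_iff (Or.inr ⟨by norm_num, by have := h1.one_le_N; omega⟩)]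
    constructor
    · have : ((2 ^ j : ℕ) : ℝ) < ((N b + 1 : ℕ) : ℝ) := by push_cast; linarith
      have := Nat.cast_lt.1 this
      omega
    · have : ((N b : ℕ) : ℝ) < ((2 ^ (j + 1) : ℕ) : ℝ) := by push_cast; rw [pow_succ]; linarith
      exact_mod_cast this

open Classical in
/-- identification of the dyadic family sum with `FamS` -/
theorem FS_eq_FamS {w α : O → ℂ} {i j l : ℕ} :
    FS (fun a b => w (a * b)) α i j l =
      FamS w (fun a => if (2 : ℝ) ^ i - 1 / 2 < (N a : ℝ) ∧ (N a : ℝ) ≤ 2 * ((2 : ℝ) ^ i - 1 / 2)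
        then α a else 0) 1 ((2 : ℝ) ^ i - 1 / 2) (1 * ((2 : ℝ) ^ j - 1 / 2))
        ((1 + 1) * ((2 : ℝ) ^ j - 1 / 2)) l := by
  rw [FS, FamS]
  have hfl : ⌊2 * ((2 : ℝ) ^ i - 1 / 2)⌋₊ + 1 = 2 ^ (i + 1) := by
    have h1 : 1 ≤ 2 ^ (i + 1) := Nat.one_le_two_pow
    have : (2 * ((2 : ℝ) ^ i - 1 / 2)) = ((2 ^ (i + 1) - 1 : ℕ) : ℝ) := by
      rw [Nat.cast_sub h1]; push_cast; ring
    rw [this, Nat.floor_natCast]
    omega
  rw [hfl]
  refine sum_congr rfl fun s _ => ?_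
  have hB : (SPB ((1 + 1) * ((2 : ℝ) ^ j - 1 / 2))).filter
      (fun b => IsCoprime b 1 ∧ 1 * ((2 : ℝ) ^ j - 1 / 2) < (N b : ℝ)) = DB j := by
    ext b
    rw [mem_filter, mem_SPB, mem_DB_iff]
    constructor
    · rintro ⟨⟨⟨h1, h2⟩, h3⟩, _, h4⟩
      exact ⟨h1, h3, by linarith, by linarith⟩
    · rintro ⟨h1, h3, h4, h5⟩
      exact ⟨⟨⟨h1, by linarith⟩, h3⟩, isCoprime_one_right, by linarith⟩
  rw [hB]
  refine sum_congr rfl fun b _ => ?_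
  congr 2
  have hsub : (DB i).filter (fun a => N a / 2 ^ l = s) ⊆
      (SPB (2 * ((2 : ℝ) ^ i - 1 / 2))).filter (fun a => N a / 2 ^ l = s) := by
    intro a ha
    rw [mem_filter, mem_DB_iff] at ha
    rw [mem_filter, mem_SPB]
    exact ⟨⟨⟨ha.1.1, ha.1.2.2.2⟩, ha.1.2.1⟩, ha.2⟩
  refine sum_subset_zero_on_sdiff hsub ?_ ?_
  · intro a ha
    rw [mem_sdiff, mem_filter, mem_SPB, mem_filter, mem_DB_iff] at ha
    rw [if_neg, zero_mul]
    rintro ⟨h1, h2⟩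
    exact ha.2 ⟨⟨ha.1.1.1.1, ha.1.1.2, h1, h2⟩, ha.1.2⟩
  · intro a ha
    rw [mem_filter, mem_DB_iff] at ha
    rw [if_pos ⟨ha.1.2.2.1, ha.1.2.2.2⟩]

theorem dens_one : dens 1 = 1 := by rw [dens, pdv_one, prod_empty]

end Vale.Agent.P006.DN
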