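import Vale.Agent.P006.H103.Defs
import Vale.Agent.P006.CR.Reciprocity

/-!
P006, block DN (helper611): the common theorem (dispersion + non-cubes + Siegel-Walfisz) for a
family of blocks, consumed by the interior Type II theorem and by the edge.
-/

namespace Vale.Agent.P006

open Finset

/-- the off-diagonal error `E_M`: pairs `a₁ ≠ a₂` in the same block of length `2 ^ l` -/
noncomputable def EMf (α : O → ℂ) (Y : ℝ) (l : ℕ) : ℝ :=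
  ∑ a₁ ∈ SPB Y, ∑ a₂ ∈ SPB Y,
    if a₁ ≠ a₂ ∧ N a₁ / 2 ^ l = N a₂ / 2 ^ l then
      ‖α a₁‖ * ‖α a₂‖ * (∑ d ∈ dvs a₁ ∩ dvs a₂, (N d : ℝ)) / Real.sqrt (N a₁ * N a₂) *
        (tau a₁ * tau a₂)
    else 0

open Classical in
/-- the family sum: `a` in the blocks `⌊N a / 2 ^ l⌋ = s`, `b` squarefree primary coprime to `W`
in the norm interval `(y₁, y₂]` -/
noncomputable def FamS (w α : O → ℂ) (W : O) (A y₁ y₂ : ℝ) (l : ℕ) : ℝ :=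
  ∑ s ∈ range (⌊2 * A⌋₊ + 1), ∑ b ∈ (SPB y₂).filter (fun b => IsCoprime b W ∧ y₁ < (N b : ℝ)),
    ‖∑ a ∈ (SPB (2 * A)).filter (fun a => N a / 2 ^ l = s), α a * w (a * b)‖ ^ 2

/-- **DN** = DISP + NC + SW for coefficients of class `ClassG`. -/
def DNHyp (w : O → ℂ) (δ : ℝ) : Prop :=
  ∃ C₀ : ℝ, 0 ≤ C₀ ∧ ∀ W : O, Primary W → Squarefree W → ∀ A' C' : ℕ, ∃ C : ℝ, 0 ≤ C ∧
    ∀ X A B : ℝ, 3 ≤ X → X ^ δ ≤ A → A ^ (1 + δ) ≤ B → B ≤ 100 * A ^ 2 → A * B ≤ X →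
    ∀ ξ u : ℝ, (Real.log X ^ C')⁻¹ ≤ ξ → ξ ≤ 1 → 1 ≤ u → u ≤ 2 →
    ∀ l : ℕ, ∀ G : ℝ, 1 ≤ G → ∀ α : O → ℂ, ClassG α X G →
    (∀ a, α a ≠ 0 → IsCoprime a W ∧ A < (N a : ℝ) ∧ (N a : ℝ) ≤ 2 * A) →
    FamS w α W A (u * B) ((u + ξ) * B) l ≤
      C₀ * dens W * ξ * B * ∑ a ∈ SPB (2 * A), ‖α a‖ ^ 2
      + C₀ * ξ ^ (-(1 / 2) : ℝ) * B * EMf α (2 * A) l
      + C * G ^ 2 * A ^ (5 / 3 : ℝ) * B ^ (2 / 3 : ℝ) / Real.log X ^ A'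

/-- **interior Type II without roughness**, all `x ≤ X` -/
def TIIX (w : O → ℂ) (d κ : ℝ) : Prop :=
  ∀ A : ℕ, ∃ C : ℝ, 0 ≤ C ∧ ∀ X : ℝ, 3 ≤ X → ∀ G : ℝ, 1 ≤ G → ∀ α β : O → ℂ, ClassG α X G →
    (∀ a, α a ≠ 0 → X ^ (1 / 3 + d) < (N a : ℝ) ∧ (N a : ℝ) ≤ X ^ (1 / 2 - κ)) →
    (∀ b, ‖β b‖ ≤ 1) → (∀ b, β b ≠ 0 → Primary b ∧ Squarefree b) →
    ∀ x : ℝ, x ≤ X → ‖Bil w α β x‖ ≤ C * G * X ^ (5 / 6 : ℝ) / Real.log X ^ A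

theorem TIIHyp_of_TIIX {w : O → ℂ} {d κ : ℝ} (h : TIIX w d κ) (η : ℝ) : TIIHyp w d κ η := by
  intro A
  obtain ⟨C, hC, h⟩ := h A
  refine ⟨C, hC, fun X hX G hG α β hα hs hβ hβs x hx => ?_⟩
  exact h X hX G hG α β hα (fun a ha => (hs a ha).2) hβ
    (fun b hb => ⟨(hβs b hb).1, (hβs b hb).2.1⟩) x hx

/-- cubic large sieve of Heath-Brown, squarefree × squarefree -/
def HBsq : Prop :=
  ∀ ε : ℝ, 0 < ε → ∃ C : ℝ, 0 < C ∧ ∀ K M : ℝ, 1 ≤ K → 1 ≤ M → ∀ c : O → ℂ,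
    ∑ n ∈ SPB M, ‖∑ k ∈ SPB K, c k * toC (sym k n)‖ ^ 2 ≤
      C * (K * M) ^ ε * (K + M + (K * M) ^ (2 / 3 : ℝ)) * ∑ k ∈ SPB K, ‖c k‖ ^ 2

end Vale.Agent.P006
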