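import Vale.Agent.P006.DN.NCfam
import Vale.Agent.P006.DN.EM
import Vale.Agent.P006.DISP.Main
import Vale.Agent.P006.CMX.Exist
import Vale.Agent.P006.H206.Dvd

/-!
P006, block DN (helper611): the family sum is bounded by the dispersion sums of the blocks.
-/

namespace Vale.Agent.P006.DN

open scoped Classical
open Finset DISP

/-- the norm of the gcd is at most the sum of the norms of the common primary divisors -/
theorem N_gcd_le {a1 a2 : O} (h1 : InP a1) (h2 : InP a2) :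
    (N (EuclideanDomain.gcd a1 a2) : ℝ) ≤ ∑ d ∈ dvs a1 ∩ dvs a2, (N d : ℝ) := by
  obtain ⟨g, hg, hg1, hg2, he, _⟩ := NC.exists_primary_gcd (j := a1) ⟨h1.1, h1.2⟩ a2
  have he' : (N (EuclideanDomain.gcd a1 a2) : ℝ) = N g := he
  rw [he']
  refine Finset.single_le_sum (f := fun g : O => (N g : ℝ)) (fun _ _ => by positivity) ?_
  rw [mem_inter, mem_dvs h1.ne_zero, mem_dvs h2.ne_zero]
  exact ⟨⟨hg.1, hg1⟩, hg.1, hg2⟩

/-- the second error terms of the blocks sum to at most `EMf` -/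
theorem sum_em_le (α : O → ℂ) (Y : ℝ) (l : ℕ) (S : Finset ℕ) :
    ∑ s ∈ S, ∑ a1 ∈ SPB Y, ∑ a2 ∈ SPB Y,
      (if a1 = a2 then 0 else ‖blk α l s a1‖ * ‖blk α l s a2‖ * emk a1 a2) ≤ EMf α Y l := by
  rw [EMf, sum_comm]
  refine sum_le_sum fun a1 h1 => ?_
  rw [sum_comm]
  refine sum_le_sum fun a2 h2 => ?_
  have p1 := (mem_SPB_iff.1 h1).1
  have p2 := (mem_SPB_iff.1 h2).1
  by_cases h : a1 = a2
  · simp [h]
  by_cases hb : N a1 / 2 ^ l = N a2 / 2 ^ l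
  · rw [if_pos ⟨h, hb⟩]
    have hE : 0 ≤ emk a1 a2 := by unfold emk; positivity
    have e : ∀ s, (if a1 = a2 then 0 else ‖blk α l s a1‖ * ‖blk α l s a2‖ * emk a1 a2) =
        if N a1 / 2 ^ l = s then ‖α a1‖ * ‖α a2‖ * emk a1 a2 else 0 := by
      intro s
      rw [if_neg h, blk, blk, ← hb]
      by_cases hs : N a1 / 2 ^ l = s
      · simp only [if_pos hs]
      · simp only [if_neg hs]; simp
    rw [sum_congr rfl fun s _ => e s, sum_ite_eq]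
    have hg := N_gcd_le p1 p2
    have hle : ‖α a1‖ * ‖α a2‖ * emk a1 a2 ≤ ‖α a1‖ * ‖α a2‖ *
        (∑ d ∈ dvs a1 ∩ dvs a2, (N d : ℝ)) / Real.sqrt (N a1 * N a2) * (tau a1 * tau a2) := by
      unfold emk
      rw [mul_div_assoc, mul_assoc (‖α a1‖ * ‖α a2‖)]
      gcongr
    split_ifs
    · exact hle
    · refine le_trans ?_ hle
      positivity
  · rw [if_neg (fun hh => hb hh.2)]
    refine le_of_eq (sum_eq_zero fun s _ => ?_)
    rw [if_neg h, blk, blk]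
    by_cases hs : N a1 / 2 ^ l = s
    · have hs2 : ¬ N a2 / 2 ^ l = s := fun hh => hb (hs.trans hh.symm)
      simp only [if_neg hs2]; simp
    · simp only [if_neg hs]; simp

/-- the diagonals -/
theorem sum_diag_le (α : O → ℂ) (Y : ℝ) (l : ℕ) (S : Finset ℕ) :
    ∑ s ∈ S, ∑ a ∈ SPB Y, ‖blk α l s a‖ ^ 2 ≤ ∑ a ∈ SPB Y, ‖α a‖ ^ 2 := by
  rw [sum_comm]
  refine sum_le_sum fun a _ => ?_
  have e : ∀ s, ‖blk α l s a‖ ^ 2 = if N a / 2 ^ l = s then ‖α a‖ ^ 2 else 0 := by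
    intro s
    rw [blk]
    split_ifs <;> simp
  rw [sum_congr rfl fun s _ => e s, sum_ite_eq]
  split_ifs
  · exact le_rfl
  · positivity

/-- the general kernel term -/
theorem sum_R_le {α : O → ℂ} {G : ℝ} (hG : 0 ≤ G) (hα : ∀ a, ‖α a‖ ≤ G) (Y : ℝ) (l : ℕ)
    (S : Finset ℕ) {R : O → O → ℝ} (hR : ∀ a1 a2, 0 ≤ R a1 a2) :
    ∑ s ∈ S, ∑ a1 ∈ SPB Y, ∑ a2 ∈ SPB Y, ‖blk α l s a1‖ * ‖blk α l s a2‖ * R a1 a2 ≤
      G ^ 2 * ∑ a1 ∈ SPB Y, ∑ a2 ∈ SPB Y, R a1 a2 := by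
  rw [sum_comm, mul_sum]
  refine sum_le_sum fun a1 _ => ?_
  rw [sum_comm, mul_sum]
  refine sum_le_sum fun a2 _ => ?_
  have e : ∀ s ∈ S, ‖blk α l s a1‖ * ‖blk α l s a2‖ * R a1 a2 ≤
      if N a1 / 2 ^ l = s then G ^ 2 * R a1 a2 else 0 := by
    intro s _
    have h1 : ‖blk α l s a2‖ ≤ G := by
      rw [blk]; split_ifs
      · exact hα _
      · simpa using hG
    rw [blk]
    split_ifs with h
    · have : ‖α a1‖ * ‖blk α l s a2‖ ≤ G ^ 2 := by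
        rw [pow_two]
        exact mul_le_mul (hα _) h1 (norm_nonneg _) hG
      exact mul_le_mul_of_nonneg_right this (hR _ _)
    · simp
  refine (sum_le_sum e).trans ?_
  rw [sum_ite_eq]
  split_ifs
  · exact le_rfl
  · exact mul_nonneg (by positivity) (hR _ _)

/-- `FamS` as a sum over the blocks -/
theorem FamS_eq (α : O → ℂ) (w : O → ℂ) (W : O) (A y₁ y₂ : ℝ) (l : ℕ) :
    FamS w α W A y₁ y₂ l = ∑ s ∈ range (⌊2 * A⌋₊ + 1),
      ∑ b ∈ (SPB y₂).filter (fun b => IsCoprime b W ∧ y₁ < (N b : ℝ)),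
        ‖∑ a ∈ SPB (2 * A), blk α l s a * w (a * b)‖ ^ 2 := by
  rw [FamS]
  refine sum_congr rfl fun s _ => sum_congr rfl fun b _ => ?_
  rw [sum_filter]
  congr 2
  refine sum_congr rfl fun a _ => ?_
  rw [blk]
  split_ifs <;> simp

theorem blk_adm {W : O} {A : ℝ} {α : O → ℂ} (h : Adm W A α) (l s : ℕ) : Adm W A (blk α l s) :=
  ⟨fun a ha => h.supp a (blk_ne_zero ha)⟩

/-- the family sum from the dispersion theorem -/
theorem FamS_le (hD : DispStmt) : ∃ C0 : ℝ, 0 ≤ C0 ∧ ∀ W : O, InP W → ∀ ε : ℝ, 0 < ε →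
    ∃ C c : ℝ, 0 ≤ C ∧ 0 ≤ c ∧
    ∀ ξ u A B : ℝ, 0 < ξ → ξ ≤ 1 → 1 ≤ u → u ≤ 2 → 1 ≤ A → 1 ≤ B →
    ∀ (α : O → ℂ) (G : ℝ), 0 ≤ G → (∀ a, ‖α a‖ ≤ G) → Adm W A α → ∀ l : ℕ,
      FamS wf α W A (u * B) ((u + ξ) * B) l ≤
        C0 * dens W * ξ * B * ∑ a ∈ SPB (2 * A), ‖α a‖ ^ 2
          + C0 * ξ ^ (-(1 / 2) : ℝ) * B * EMf α (2 * A) l
          + G ^ 2 * (C * ξ ^ (-c) * (A * B) ^ ε *
              (A ^ (11 / 6 : ℝ) * B ^ (1 / 3 : ℝ) + (A * B) ^ (2 / 3 : ℝ)))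
          + C * ξ ^ (-c) * ∑ s ∈ range (⌊2 * A⌋₊ + 1), NCf (blk α l s) A B := by
  obtain ⟨V0, hV0⟩ := CMX.exists_bump
  obtain ⟨C0, hC0, hD⟩ := hD V0 hV0
  refine ⟨C0, hC0, fun W hW ε hε => ?_⟩
  obtain ⟨C, c, hC, hc, hD⟩ := hD W hW ε hε
  refine ⟨C, c, hC, hc, fun ξ u A B hξ hξ1 hu hu2 hA hB α G hG hαG hα l => ?_⟩
  obtain ⟨R, hR, hRs, hmain⟩ := hD ξ u A B hξ hξ1 hu hu2 hA hB
  have hB0 : 0 < B := by linarith
  rw [FamS_eq]
  have hdens := dens_nonneg W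
  have h1 : ∀ s ∈ range (⌊2 * A⌋₊ + 1),
      ∑ b ∈ (SPB ((u + ξ) * B)).filter (fun b => IsCoprime b W ∧ u * B < (N b : ℝ)),
        ‖∑ a ∈ SPB (2 * A), blk α l s a * wf (a * b)‖ ^ 2 ≤
      C0 * dens W * (ξ * B) * ∑ a ∈ SPB (2 * A), ‖blk α l s a‖ ^ 2
            + C0 * ξ ^ (-(1 / 2) : ℝ) * B *
              (∑ a1 ∈ SPB (2 * A), ∑ a2 ∈ SPB (2 * A),
                if a1 = a2 then 0 else ‖blk α l s a1‖ * ‖blk α l s a2‖ * emk a1 a2)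
            + ∑ a1 ∈ SPB (2 * A), ∑ a2 ∈ SPB (2 * A), ‖blk α l s a1‖ * ‖blk α l s a2‖ * R a1 a2
            + C * ξ ^ (-c) * NCf (blk α l s) A B := by
    intro s _
    refine le_trans (block_le_DS (V := Vx V0 ξ u) (Vx_nonneg hV0 ξ u) W _ A _ ?_)
      (hmain _ (blk_adm hα l s))
    intro b hb
    rw [mem_filter, mem_SPB_iff] at hb
    obtain ⟨⟨hbP, hb1⟩, hbW, hb2⟩ := hb
    refine ⟨hbP, hbW, ?_, ?_⟩
    · nlinarith
    · rw [Vx_one hV0 hξ]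
      · rw [le_div_iff₀ hB0]; exact hb2.le
      · rw [div_le_iff₀ hB0]; exact hb1
  refine (sum_le_sum h1).trans ?_
  rw [sum_add_distrib, sum_add_distrib, sum_add_distrib, ← mul_sum, ← mul_sum, ← mul_sum]
  have e1 := sum_diag_le α (2 * A) l (range (⌊2 * A⌋₊ + 1))
  have e2 := sum_em_le α (2 * A) l (range (⌊2 * A⌋₊ + 1))
  have e3 := (sum_R_le hG hαG (2 * A) l (range (⌊2 * A⌋₊ + 1)) hR).trans
    (mul_le_mul_of_nonneg_left hRs (by positivity : (0 : ℝ) ≤ G ^ 2))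
  have e1' := mul_le_mul_of_nonneg_left e1 (by positivity : 0 ≤ C0 * dens W * (ξ * B))
  have e2' := mul_le_mul_of_nonneg_left e2 (by positivity : 0 ≤ C0 * ξ ^ (-(1 / 2) : ℝ) * B)
  have e4 : C0 * dens W * ξ * B = C0 * dens W * (ξ * B) := by ring
  rw [e4]
  linarith

end Vale.Agent.P006.DN
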