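import Vale.Agent.P006.DN.FamDS
import Vale.Agent.P006.DN.NCout
import Vale.Agent.P006.DISP.Disp

/-!
P006, block DN (helper611): **DN** from the dispersion theorem.
-/

namespace Vale.Agent.P006.DN

open scoped Classical
open Finset DISP

/-- trivial bound of the family sum -/
theorem FamS_trivial {α : O → ℂ} {G : ℝ} (hG : 0 ≤ G) (hα : ∀ a, ‖α a‖ ≤ G) {A y₁ y₂ : ℝ}
    (hA : 0 ≤ A) (hy : 0 ≤ y₂) (W : O) (l : ℕ) :
    FamS wf α W A y₁ y₂ l ≤ 4 * y₂ * (16 * A * G) ^ 2 := by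
  rw [FamS, sum_comm]
  have h1 : ∀ b ∈ (SPB y₂).filter (fun b => IsCoprime b W ∧ y₁ < (N b : ℝ)),
      ∑ s ∈ range (⌊2 * A⌋₊ + 1),
        ‖∑ a ∈ (SPB (2 * A)).filter (fun a => N a / 2 ^ l = s), α a * wf (a * b)‖ ^ 2 ≤
      (16 * A * G) ^ 2 := by
    intro b _
    calc _ ≤ ∑ s ∈ range (⌊2 * A⌋₊ + 1),
          (∑ a ∈ (SPB (2 * A)).filter (fun a => N a / 2 ^ l = s), ‖α a * wf (a * b)‖) ^ 2 := by
          refine sum_le_sum fun s _ => ?_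
          gcongr
          exact norm_sum_le _ _
      _ ≤ (∑ a ∈ SPB (2 * A), ‖α a * wf (a * b)‖) ^ 2 :=
          sum_sq_fiber_le _ _ (fun a => N a / 2 ^ l) _ (fun a _ => norm_nonneg _)
      _ ≤ (16 * A * G) ^ 2 := by
          gcongr
          calc ∑ a ∈ SPB (2 * A), ‖α a * wf (a * b)‖ ≤ ∑ a ∈ SPB (2 * A), G * 2 := by
                refine sum_le_sum fun a _ => ?_
                rw [norm_mul]
                exact mul_le_mul (hα a) (norm_wf_le_two _) (norm_nonneg _) hG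
            _ = (SPB (2 * A)).card * (G * 2) := by rw [sum_const, nsmul_eq_mul]
            _ ≤ (4 * (2 * A)) * (G * 2) := by
                gcongr
                exact (by exact_mod_cast card_le_card SPB_subset_PB :
                  ((SPB (2 * A)).card : ℝ) ≤ ((PB (2 * A)).card : ℝ)).trans
                  (Vale.Agent.P006.card_PB_le (by positivity))
            _ = _ := by ring
  refine (sum_le_sum h1).trans ?_
  rw [sum_const, nsmul_eq_mul]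
  gcongr
  calc (((SPB y₂).filter (fun b => IsCoprime b W ∧ y₁ < (N b : ℝ))).card : ℝ) ≤
        ((PB y₂).card : ℝ) := by
        exact_mod_cast card_le_card ((filter_subset _ _).trans SPB_subset_PB)
    _ ≤ 4 * y₂ := Vale.Agent.P006.card_PB_le hy

theorem xi_pow_le {L ξ c : ℝ} {C' : ℕ} (hL : 1 ≤ L) (hc : 0 ≤ c)
    (hξ : (L ^ C')⁻¹ ≤ ξ) : ξ ^ (-c) ≤ L ^ (C' * ⌈c⌉₊) := by
  have hL0 : 0 < L := by linarith
  have h1 : ξ ^ (-c) ≤ ((L ^ C')⁻¹) ^ (-c) :=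
    Real.rpow_le_rpow_of_nonpos (by positivity) hξ (by linarith)
  refine h1.trans ?_
  rw [Real.rpow_neg (by positivity), Real.inv_rpow (by positivity), inv_inv, pow_mul,
    ← Real.rpow_natCast (L ^ C')]
  exact Real.rpow_le_rpow_of_exponent_le (one_le_pow₀ hL) (Nat.le_ceil c)

/-- arithmetic of the kernel term -/
theorem R_arith {A B : ℝ} (hA : 1 ≤ A) (hAB : A ≤ B) :
    A ^ (11 / 6 : ℝ) * B ^ (1 / 3 : ℝ) + (A * B) ^ (2 / 3 : ℝ) ≤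
      2 * (A ^ (5 / 3 : ℝ) * B ^ (2 / 3 : ℝ)) * A ^ (-(1 / 6) : ℝ) := by
  have hA0 : 0 < A := by linarith
  have hB0 : 0 < B := by linarith
  have e0 : A ^ (5 / 3 : ℝ) * A ^ (-(1 / 6) : ℝ) = A ^ (3 / 2 : ℝ) := by
    rw [← Real.rpow_add hA0]; norm_num
  have h1 : A ^ (11 / 6 : ℝ) * B ^ (1 / 3 : ℝ) ≤ A ^ (3 / 2 : ℝ) * B ^ (2 / 3 : ℝ) := by
    have e1 : A ^ (11 / 6 : ℝ) = A ^ (3 / 2 : ℝ) * A ^ (1 / 3 : ℝ) := by
      rw [← Real.rpow_add hA0]; norm_num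
    have e2 : B ^ (2 / 3 : ℝ) = B ^ (1 / 3 : ℝ) * B ^ (1 / 3 : ℝ) := by
      rw [← Real.rpow_add hB0]; norm_num
    rw [e1, e2]
    calc _ ≤ A ^ (3 / 2 : ℝ) * B ^ (1 / 3 : ℝ) * B ^ (1 / 3 : ℝ) := by gcongr
      _ = _ := by ring
  have h2 : (A * B) ^ (2 / 3 : ℝ) ≤ A ^ (3 / 2 : ℝ) * B ^ (2 / 3 : ℝ) := by
    rw [Real.mul_rpow hA0.le hB0.le]
    exact mul_le_mul_of_nonneg_right (Real.rpow_le_rpow_of_exponent_le hA (by norm_num))
      (by positivity)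
  calc _ ≤ A ^ (3 / 2 : ℝ) * B ^ (2 / 3 : ℝ) + A ^ (3 / 2 : ℝ) * B ^ (2 / 3 : ℝ) := add_le_add h1 h2
    _ = 2 * (A ^ (5 / 3 : ℝ) * A ^ (-(1 / 6) : ℝ)) * B ^ (2 / 3 : ℝ) := by rw [e0]; ring
    _ = _ := by ring

/-- the kernel term -/
theorem R_term_le {A B X L G C K1 δ x : ℝ} {A' n : ℕ} (hX : 0 < X) (hL : 1 ≤ L) (hA : 1 ≤ A)
    (hδ : 0 < δ) (hAX : X ^ δ ≤ A) (hAB' : A ≤ B) (hABX : A * B ≤ X) (hC : 0 ≤ C) (hx : x ≤ L ^ n)
    (hlog : L ^ (A' + n) ≤ K1 * X ^ (δ / 12)) :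
    G ^ 2 * (C * x * (A * B) ^ (δ / 12) *
        (A ^ (11 / 6 : ℝ) * B ^ (1 / 3 : ℝ) + (A * B) ^ (2 / 3 : ℝ))) ≤
        2 * C * K1 * (G ^ 2 * (A ^ (5 / 3 : ℝ) * B ^ (2 / 3 : ℝ)) / L ^ A') := by
  have hA0 : 0 < A := by linarith
  have hB0 : 0 < B := by linarith
  have hL0 : 0 < L := by linarith
  set P : ℝ := A ^ (5 / 3 : ℝ) * B ^ (2 / 3 : ℝ) with hP
  have hP0 : 0 ≤ P := by positivity
  have hR := R_arith hA hAB'
  rw [← hP] at hR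
  have hA6 : A ^ (-(1 / 6) : ℝ) ≤ X ^ (-(δ / 6)) := by
    calc A ^ (-(1 / 6) : ℝ) ≤ (X ^ δ) ^ (-(1 / 6) : ℝ) :=
          Real.rpow_le_rpow_of_nonpos (by positivity) hAX (by norm_num)
      _ = X ^ (-(δ / 6)) := by rw [← Real.rpow_mul hX.le]; ring_nf
  have hABe : (A * B) ^ (δ / 12) ≤ X ^ (δ / 12) :=
    Real.rpow_le_rpow (by positivity) hABX (by positivity)
  have hR2 : A ^ (11 / 6 : ℝ) * B ^ (1 / 3 : ℝ) + (A * B) ^ (2 / 3 : ℝ) ≤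
      2 * P * X ^ (-(δ / 6)) :=
    hR.trans (mul_le_mul_of_nonneg_left hA6 (by positivity))
  set R : ℝ := A ^ (11 / 6 : ℝ) * B ^ (1 / 3 : ℝ) + (A * B) ^ (2 / 3 : ℝ) with hRdef
  have hR0 : 0 ≤ R := by positivity
  have hprod : L ^ n * X ^ (δ / 12) * X ^ (-(δ / 6)) ≤ K1 / L ^ A' := by
    rw [le_div_iff₀ (by positivity)]
    calc L ^ n * X ^ (δ / 12) * X ^ (-(δ / 6)) * L ^ A'
        = L ^ (A' + n) * (X ^ (δ / 12) * X ^ (-(δ / 6))) := by rw [pow_add]; ring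
      _ ≤ K1 * X ^ (δ / 12) * (X ^ (δ / 12) * X ^ (-(δ / 6))) :=
          mul_le_mul_of_nonneg_right hlog (by positivity)
      _ = K1 * (X ^ (δ / 12) * (X ^ (δ / 12) * X ^ (-(δ / 6)))) := by ring
      _ = K1 := by
          rw [← Real.rpow_add hX, ← Real.rpow_add hX,
            show δ / 12 + (δ / 12 + -(δ / 6)) = 0 by ring, Real.rpow_zero, mul_one]
  have h1 : C * x * (A * B) ^ (δ / 12) * R ≤
      C * L ^ n * X ^ (δ / 12) * (2 * P * X ^ (-(δ / 6))) := by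
    have e1 : C * x ≤ C * L ^ n := mul_le_mul_of_nonneg_left hx hC
    have e2 : C * x * (A * B) ^ (δ / 12) ≤ C * L ^ n * X ^ (δ / 12) :=
      mul_le_mul e1 hABe (by positivity) (by positivity)
    exact mul_le_mul e2 hR2 hR0 (by positivity)
  calc G ^ 2 * (C * x * (A * B) ^ (δ / 12) * R)
      ≤ G ^ 2 * (C * L ^ n * X ^ (δ / 12) * (2 * P * X ^ (-(δ / 6)))) :=
        mul_le_mul_of_nonneg_left h1 (by positivity)
    _ = 2 * C * G ^ 2 * P * (L ^ n * X ^ (δ / 12) * X ^ (-(δ / 6))) := by ring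
    _ ≤ 2 * C * G ^ 2 * P * (K1 / L ^ A') := mul_le_mul_of_nonneg_left hprod (by positivity)
    _ = _ := by ring

/-- the non-cube term -/
theorem N_term_le {A B L G C Cn x S : ℝ} {A' n : ℕ} (hL : 1 ≤ L)
    (hC : 0 ≤ C) (hx : x ≤ L ^ n) (hS0 : 0 ≤ S)
    (hS : S ≤ Cn * G ^ 2 * A ^ (5 / 3 : ℝ) * B ^ (2 / 3 : ℝ) / L ^ (A' + n)) :
    C * x * S ≤ C * Cn * (G ^ 2 * (A ^ (5 / 3 : ℝ) * B ^ (2 / 3 : ℝ)) / L ^ A') := by
  have hL0 : 0 < L := by linarith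
  have e1 : C * x ≤ C * L ^ n := mul_le_mul_of_nonneg_left hx hC
  calc C * x * S ≤ C * L ^ n * (Cn * G ^ 2 * A ^ (5 / 3 : ℝ) * B ^ (2 / 3 : ℝ) / L ^ (A' + n)) :=
        mul_le_mul e1 hS hS0 (by positivity)
    _ = _ := by
        rw [pow_add]
        field_simp

/-- small `X` -/
theorem small_le {α : O → ℂ} {X X0 A B G ξ u : ℝ} {W : O} {l A' : ℕ} (hX : 3 ≤ X) (hXX : X < X0)
    (hA : 1 ≤ A) (hB : 1 ≤ B) (hAB : A * B ≤ X) (hG : 0 ≤ G) (hα : ∀ a, ‖α a‖ ≤ G)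
    (hξ0 : 0 < ξ) (hξ1 : ξ ≤ 1) (hu : 1 ≤ u) (hu2 : u ≤ 2) :
    FamS wf α W A (u * B) ((u + ξ) * B) l ≤ 3072 * X0 ^ 2 * Real.log X0 ^ A' *
      (G ^ 2 * (A ^ (5 / 3 : ℝ) * B ^ (2 / 3 : ℝ)) / Real.log X ^ A') := by
  have hL1 := one_le_log hX
  have hL0 : 0 < Real.log X := by linarith
  have hA0 : 0 < A := by linarith
  have hB0 : 0 < B := by linarith
  have h1 := FamS_trivial (y₁ := u * B) (y₂ := (u + ξ) * B) hG hα hA0.le
    (by positivity) W l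
  have hA2 : A ^ 2 * B ≤ X0 ^ 2 := by
    have h2 : A ≤ X0 := by nlinarith
    calc A ^ 2 * B = A * (A * B) := by ring
      _ ≤ X0 * X0 := mul_le_mul h2 (by linarith) (by positivity) (by linarith)
      _ = _ := by ring
  have h3 : FamS wf α W A (u * B) ((u + ξ) * B) l ≤ 3072 * X0 ^ 2 * G ^ 2 := by
    have h4 : (u + ξ) * B ≤ 3 * B := mul_le_mul_of_nonneg_right (by linarith) hB0.le
    calc _ ≤ _ := h1
      _ ≤ 4 * (3 * B) * (16 * A * G) ^ 2 := by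
          refine mul_le_mul_of_nonneg_right ?_ (by positivity)
          linarith
      _ = 3072 * (A ^ 2 * B) * G ^ 2 := by ring
      _ ≤ _ := by
          refine mul_le_mul_of_nonneg_right ?_ (by positivity)
          linarith
  have h4 : 1 ≤ A ^ (5 / 3 : ℝ) * B ^ (2 / 3 : ℝ) := by
    have := Real.one_le_rpow hA (show (0 : ℝ) ≤ 5 / 3 by norm_num)
    have := Real.one_le_rpow hB (show (0 : ℝ) ≤ 2 / 3 by norm_num)
    nlinarith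
  have h5 : Real.log X ^ A' ≤ Real.log X0 ^ A' :=
    pow_le_pow_left₀ hL0.le (Real.log_le_log (by linarith) hXX.le) _
  refine h3.trans ?_
  rw [mul_div_assoc', le_div_iff₀ (by positivity)]
  calc 3072 * X0 ^ 2 * G ^ 2 * Real.log X ^ A' ≤ 3072 * X0 ^ 2 * G ^ 2 * Real.log X0 ^ A' :=
        mul_le_mul_of_nonneg_left h5 (by positivity)
    _ = 3072 * X0 ^ 2 * Real.log X0 ^ A' * G ^ 2 * 1 := by ring
    _ ≤ 3072 * X0 ^ 2 * Real.log X0 ^ A' * G ^ 2 * (A ^ (5 / 3 : ℝ) * B ^ (2 / 3 : ℝ)) := by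
        refine mul_le_mul_of_nonneg_left h4 ?_
        have : 0 ≤ Real.log X0 := Real.log_nonneg (by linarith)
        positivity
    _ = _ := by ring

/-- **DN** from the dispersion theorem -/
theorem dnHyp_of (hD : DispStmt) {δ : ℝ} (hδ : 0 < δ) (hδ1 : δ ≤ 1) : DNHyp wf δ := by
  obtain ⟨C0, hC0, hfam⟩ := FamS_le hD
  refine ⟨C0, hC0, fun W hWp hWs A' C' => ?_⟩
  obtain ⟨C, c, hC, hc, hfam⟩ := hfam W ⟨hWp, hWs⟩ (δ / 12) (by positivity)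
  obtain ⟨X0, Cn, hX0, hCn, hnc⟩ := NCf_blocks hδ hδ1 (A' + C' * ⌈c⌉₊)
  obtain ⟨K1, hK10, hK1⟩ : ∃ K1 : ℝ, 0 ≤ K1 ∧ ∀ X : ℝ, 1 ≤ X →
      Real.log X ^ (A' + C' * ⌈c⌉₊) ≤ K1 * X ^ (δ / 12) :=
    ⟨_, by positivity, fun X hX => log_pow_le (c := δ / 12) (by positivity) _ hX⟩
  have hlX0 : 0 ≤ Real.log X0 := Real.log_nonneg (by linarith)
  refine ⟨2 * C * K1 + C * Cn + 3072 * X0 ^ 2 * Real.log X0 ^ A', by positivity, ?_⟩
  intro X A B hX hA hB _ hAB ξ u hξ hξ1 hu hu2 l G hG α hα hs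
  have hX00 : 0 < X := by linarith
  have hL1 := one_le_log hX
  have hL0 : 0 < Real.log X := by linarith
  have hA1 : 1 ≤ A := (Real.one_le_rpow (by linarith) hδ.le).trans hA
  have hA0 : 0 < A := by linarith
  have hAB' : A ≤ B := by
    calc A = A ^ (1 : ℝ) := (Real.rpow_one A).symm
      _ ≤ A ^ (1 + δ) := Real.rpow_le_rpow_of_exponent_le hA1 (by linarith)
      _ ≤ B := hB
  have hB1 : 1 ≤ B := hA1.trans hAB'
  have hB0 : 0 < B := by linarith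
  have hξ0 : 0 < ξ := lt_of_lt_of_le (by positivity) hξ
  have hadm : Adm W A α := ⟨fun a ha => ⟨⟨(hα.supp a ha).1, (hα.supp a ha).2.1⟩, hs a ha⟩⟩
  have hαG : ∀ a, ‖α a‖ ≤ G := hα.bound
  have hdens := dens_nonneg W
  have hEM := EMf_nonneg α (2 * A) l
  have hT1 : 0 ≤ C0 * dens W * ξ * B * ∑ a ∈ SPB (2 * A), ‖α a‖ ^ 2 := by positivity
  have hT2 : 0 ≤ C0 * ξ ^ (-(1 / 2) : ℝ) * B * EMf α (2 * A) l := by positivity
  have hQ0 : 0 ≤ G ^ 2 * (A ^ (5 / 3 : ℝ) * B ^ (2 / 3 : ℝ)) / Real.log X ^ A' := by positivity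
  have e : (2 * C * K1 + C * Cn + 3072 * X0 ^ 2 * Real.log X0 ^ A') * G ^ 2 *
      A ^ (5 / 3 : ℝ) * B ^ (2 / 3 : ℝ) / Real.log X ^ A' =
      2 * C * K1 * (G ^ 2 * (A ^ (5 / 3 : ℝ) * B ^ (2 / 3 : ℝ)) / Real.log X ^ A') +
      C * Cn * (G ^ 2 * (A ^ (5 / 3 : ℝ) * B ^ (2 / 3 : ℝ)) / Real.log X ^ A') +
      3072 * X0 ^ 2 * Real.log X0 ^ A' *
        (G ^ 2 * (A ^ (5 / 3 : ℝ) * B ^ (2 / 3 : ℝ)) / Real.log X ^ A') := by ring
  rw [e]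
  have h31 : 0 ≤ 2 * C * K1 * (G ^ 2 * (A ^ (5 / 3 : ℝ) * B ^ (2 / 3 : ℝ)) / Real.log X ^ A') :=
    mul_nonneg (by positivity) hQ0
  have h32 : 0 ≤ C * Cn * (G ^ 2 * (A ^ (5 / 3 : ℝ) * B ^ (2 / 3 : ℝ)) / Real.log X ^ A') :=
    mul_nonneg (by positivity) hQ0
  have h33 : 0 ≤ 3072 * X0 ^ 2 * Real.log X0 ^ A' *
        (G ^ 2 * (A ^ (5 / 3 : ℝ) * B ^ (2 / 3 : ℝ)) / Real.log X ^ A') :=
    mul_nonneg (by positivity) hQ0
  rcases le_or_gt X0 X with hXX | hXX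
  · -- large `X`
    have h1 := hfam ξ u A B hξ0 hξ1 hu hu2 hA1 hB1 α G (by linarith) hαG hadm l
    have h2 := hnc X A B G α hXX hA hB hAB hG hα (fun a ha => (hs a ha).2) l
      (range (⌊2 * A⌋₊ + 1))
    have hxi := xi_pow_le hL1 hc hξ
    have h4 := R_term_le (G := G) hX00 hL1 hA1 hδ hA hAB' hAB hC hxi (hK1 X (by linarith))
    have hS0 : 0 ≤ ∑ s ∈ range (⌊2 * A⌋₊ + 1), NCf (blk α l s) A B :=
      sum_nonneg fun s _ => NCf_nonneg hA0 hB0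
    have h5 := N_term_le hL1 hC hxi hS0 h2
    linarith
  · -- small `X`
    have h1 := small_le (l := l) (W := W) (A' := A') hX hXX hA1 hB1 hAB (by linarith : 0 ≤ G) hαG
      hξ0 hξ1 hu hu2
    linarith

end Vale.Agent.P006.DN
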