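import Vale.Agent.P006.DN.NCsum

/-!
P006, block DN (helper611): the generic corollary: `∑_s NCf (α s) A B` from bounds of the quadratic
forms `∑_s NCQ (twc (α s) A σ t) (2A) H`.
-/

namespace Vale.Agent.P006.DN

open scoped Classical
open Finset DISP MeasureTheory

/-- integral bound with growth `(1+t²)^{1/4}` allowed -/
theorem int_growth {f : ℝ → ℝ} {P0 P1 : ℝ} (h0 : 0 ≤ P0) (h1 : 0 ≤ P1)
    (hf0 : ∀ t, 0 ≤ f t) (hfint : Integrable fun t : ℝ => (1 + t ^ 2)⁻¹ * f t)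
    (hf : ∀ t, f t ≤ P1 + P0 * (1 + t ^ 2) ^ (1 / 4 : ℝ)) :
    ∫ t : ℝ, (1 + t ^ 2)⁻¹ * f t ≤ Real.pi * P1 + c34 * P0 := by
  have e : Real.pi * P1 + c34 * P0 =
      ∫ t : ℝ, (P1 * (1 + t ^ 2)⁻¹ + P0 * (1 + ‖t‖ ^ 2) ^ (-(3 / 2 : ℝ) / 2)) := by
    rw [integral_add (integrable_inv_one_add_sq.const_mul _) (integrable_c34.const_mul _),
      integral_const_mul, integral_const_mul, integral_univ_inv_one_add_sq, c34]
    ring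
  rw [e]
  refine integral_mono hfint
    ((integrable_inv_one_add_sq.const_mul _).add (integrable_c34.const_mul _)) fun t => ?_
  simp only
  have hp : (0 : ℝ) < 1 + t ^ 2 := by positivity
  rw [Real.norm_eq_abs, sq_abs]
  have h3 : (1 + t ^ 2) ^ (-(3 / 2 : ℝ) / 2) = (1 + t ^ 2)⁻¹ * (1 + t ^ 2) ^ (1 / 4 : ℝ) := by
    rw [← Real.rpow_neg_one, ← Real.rpow_add hp]; norm_num
  rw [h3]
  calc (1 + t ^ 2)⁻¹ * f t ≤ (1 + t ^ 2)⁻¹ * (P1 + P0 * (1 + t ^ 2) ^ (1 / 4 : ℝ)) := by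
        gcongr
        exact hf t
    _ = _ := by ring

theorem TS_le_growth {S : Finset ℕ} {α : ℕ → O → ℂ} {A σ H P0 P1 : ℝ} (hA : 0 < A) (hσ : σ ≠ 0)
    (h0 : 0 ≤ P0) (h1 : 0 ≤ P1)
    (hf : ∀ t, ∑ s ∈ S, NCQ (twc (α s) A σ t) (2 * A) H ≤ P1 + P0 * (1 + t ^ 2) ^ (1 / 4 : ℝ)) :
    TS S α A σ H ≤ Real.pi * P1 + c34 * P0 := by
  rw [TS_eq hA hσ]
  refine int_growth h0 h1 (fun t => sum_nonneg fun s _ => NCQ_nonneg _ _ _) ?_ hf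
  exact integrable_NCQ hA hσ

/-- **generic corollary**: the non-cube functional of a finite family. -/
theorem NCf_family : ∃ C : ℝ, 0 ≤ C ∧ ∀ (A B H0 P0 P1 F0 : ℝ) (S : Finset ℕ) (α : ℕ → O → ℂ),
    0 < A → 0 < B → 0 ≤ P0 → 0 ≤ P1 → 0 ≤ F0 → 0 < H0 → 2 * (A ^ 2 / B) ≤ H0 →
    (∀ σ : ℝ, (σ = -(1 / 3) ∨ σ = 3 / 2) → ∀ t H : ℝ, 1 ≤ H → H ≤ H0 →
      ∑ s ∈ S, NCQ (twc (α s) A σ t) (2 * A) H ≤
        (P1 + P0 * (1 + t ^ 2) ^ (1 / 4 : ℝ)) * H ^ (1 / 3 : ℝ)) →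
    (∀ σ : ℝ, (σ = -(1 / 3) ∨ σ = 3 / 2) → ∀ t H : ℝ, 1 ≤ H → H0 ≤ H →
      ∑ s ∈ S, NCQ (twc (α s) A σ t) (2 * A) H ≤ F0 * (H / H0) ^ (3 / 2 : ℝ)) →
    ∑ s ∈ S, NCf (α s) A B ≤
      C * ((B / A) * ((P1 + P0) * (A ^ 2 / B) ^ (1 / 3 : ℝ) + F0 * ((A ^ 2 / B) / H0) ^ 2)) := by
  obtain ⟨C, hC, h⟩ := dyadic_total
  have hpi := Real.pi_pos.le
  have hc := c34_nonneg
  refine ⟨C * (Real.pi + c34), by positivity, ?_⟩
  intro A B H0 P0 P1 F0 S α hA hB hP0 hP1 hF0 hH0 hK h1 h2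
  have hσ0 : ∀ σ : ℝ, (σ = -(1 / 3) ∨ σ = 3 / 2) → σ ≠ 0 := by
    rintro σ (rfl | rfl) <;> norm_num
  have key := h A B H0 ((Real.pi + c34) * (P1 + P0)) ((Real.pi + c34) * F0) S α hA hB
    (by positivity) (by positivity) hH0 hK ?_ ?_
  · have h3 := sum_NCf_le hA hB S α key
    refine h3.trans (le_of_eq ?_)
    ring
  · intro σ hσ H hH1 hH2
    have h3 := TS_le_growth (S := S) (α := α) (H := H) hA (hσ0 σ hσ)
      (P0 := P0 * H ^ (1 / 3 : ℝ)) (P1 := P1 * H ^ (1 / 3 : ℝ)) (by positivity) (by positivity)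
      (fun t => (h1 σ hσ t H hH1 hH2).trans (le_of_eq (by ring)))
    refine h3.trans ?_
    have hH : 0 ≤ H ^ (1 / 3 : ℝ) := by positivity
    nlinarith [mul_nonneg (mul_nonneg hpi hP0) hH, mul_nonneg (mul_nonneg hc hP1) hH]
  · intro σ hσ H hH1 hH2
    have h3 := TS_le_growth (S := S) (α := α) (H := H) hA (hσ0 σ hσ)
      (P0 := 0) (P1 := F0 * (H / H0) ^ (3 / 2 : ℝ)) le_rfl (by positivity)
      (fun t => (h2 σ hσ t H hH1 hH2).trans (le_of_eq (by ring)))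
    refine h3.trans ?_
    have hH : 0 ≤ F0 * (H / H0) ^ (3 / 2 : ℝ) := by positivity
    nlinarith [mul_nonneg hc hH]

end Vale.Agent.P006.DN
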