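import Vale.Agent.P006.DN.NCfam
import Vale.Agent.P006.DN.NCgen

/-!
P006, block DN (helper611): the non-cube functional of the blocks of a class `G` coefficient,
interior range.
-/

namespace Vale.Agent.P006.DN

open scoped Classical
open Finset DISP

theorem one_le_log {X : ℝ} (hX : 3 ≤ X) : 1 ≤ Real.log X := by
  rw [Real.le_log_iff_exp_le (by linarith)]
  exact (Real.exp_one_lt_d9.le.trans (by norm_num)).trans hX

/-- the bracket of the interior theorem with powers of `L = log X` -/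
theorem bracket_le {L c0 W : ℝ} {q A'' : ℕ} (hL : 1 ≤ L) (hq : q = 3 * (A'' + 3))
    (_hc0 : 0 ≤ c0) {lA : ℝ} (hl0 : 0 ≤ lA) (hlA : lA ≤ L) {z : ℝ} (hz : z * L ^ A'' ≤ W) :
    (L ^ q) ^ 3 * ((L ^ (8 * q)) ^ 2 * (c0 / L ^ (19 * q + A'')) +
      (L ^ (8 * q)) ^ (-(1 / 2 : ℝ))) + (1 + lA) ^ 3 * (L ^ q) ^ (-(1 / 3 : ℝ)) + z ≤
    (c0 + 9 + W) / L ^ A'' := by
  have hL0 : 0 < L := by linarith
  have hLA : 0 < L ^ A'' := by positivity
  rw [le_div_iff₀ hLA]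
  have e1 : (L ^ q) ^ 3 * ((L ^ (8 * q)) ^ 2 * (c0 / L ^ (19 * q + A''))) * L ^ A'' = c0 := by
    have : (L ^ q) ^ 3 * (L ^ (8 * q)) ^ 2 * L ^ A'' = L ^ (19 * q + A'') := by
      rw [← pow_mul, ← pow_mul, ← pow_add, ← pow_add]
      congr 1; ring
    calc _ = ((L ^ q) ^ 3 * (L ^ (8 * q)) ^ 2 * L ^ A'') * (c0 / L ^ (19 * q + A'')) := by ring
      _ = _ := by rw [this]; field_simp
  have e2 : (L ^ q) ^ 3 * (L ^ (8 * q)) ^ (-(1 / 2 : ℝ)) * L ^ A'' ≤ 1 := by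
    have h1 : (L ^ (8 * q)) ^ (-(1 / 2 : ℝ)) = (L ^ (4 * q))⁻¹ := by
      rw [Real.rpow_neg (by positivity)]
      congr 1
      rw [show (8 * q) = (4 * q) * 2 by ring, pow_mul, ← Real.sqrt_eq_rpow,
        Real.sqrt_sq (by positivity)]
    rw [h1]
    calc (L ^ q) ^ 3 * (L ^ (4 * q))⁻¹ * L ^ A'' = ((L ^ q) ^ 3 * L ^ A'') * (L ^ (4 * q))⁻¹ := by
          ring
      _ ≤ L ^ (4 * q) * (L ^ (4 * q))⁻¹ := by
          gcongr
          rw [← pow_mul, ← pow_add]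
          exact pow_le_pow_right₀ hL (by omega)
      _ = 1 := mul_inv_cancel₀ (by positivity)
  have e3 : (1 + lA) ^ 3 * (L ^ q) ^ (-(1 / 3 : ℝ)) * L ^ A'' ≤ 8 := by
    have h1 : (L ^ q) ^ (-(1 / 3 : ℝ)) = (L ^ (A'' + 3))⁻¹ := by
      rw [Real.rpow_neg (by positivity)]
      congr 1
      rw [hq, mul_comm 3, pow_mul, ← Real.rpow_natCast, ← Real.rpow_mul (by positivity)]
      norm_num
    rw [h1]
    have h2 : (1 + lA) ^ 3 ≤ (2 * L) ^ 3 := by
      apply pow_le_pow_left₀ (by linarith)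
      linarith
    calc (1 + lA) ^ 3 * (L ^ (A'' + 3))⁻¹ * L ^ A''
        ≤ (2 * L) ^ 3 * (L ^ (A'' + 3))⁻¹ * L ^ A'' := by gcongr
      _ = 8 := by
          rw [pow_add]
          field_simp
          norm_num
  calc _ = (L ^ q) ^ 3 * ((L ^ (8 * q)) ^ 2 * (c0 / L ^ (19 * q + A''))) * L ^ A'' +
      (L ^ q) ^ 3 * (L ^ (8 * q)) ^ (-(1 / 2 : ℝ)) * L ^ A'' +
      (1 + lA) ^ 3 * (L ^ q) ^ (-(1 / 3 : ℝ)) * L ^ A'' + z * L ^ A'' := by ring
    _ ≤ c0 + 1 + 8 + W := by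
        rw [e1]
        linarith
    _ = _ := by ring

/-- the bound with Siegel–Walfisz, `|t| ≤ (log X)^Cw` -/
theorem fam_small {δ : ℝ} (hδ : 0 < δ) (A'' : ℕ) : ∃ (C : ℝ) (Cw : ℕ), 0 ≤ C ∧
    2 * (A'' + 3) ≤ Cw ∧ ∀ (X A G σ t : ℝ) (α : O → ℂ), 3 ≤ X → X ^ δ ≤ A → 1 ≤ A → 2 * A ≤ X →
    1 ≤ G → σ ≤ 3 / 2 → ClassG α X G → (∀ a, α a ≠ 0 → A < (N a : ℝ) ∧ (N a : ℝ) ≤ 2 * A) →
    |t| ≤ Real.log X ^ Cw →
    ∀ (l : ℕ) (S : Finset ℕ) (H : ℝ), 1 ≤ H → H ≤ (2 * A) ^ (1 - δ / 2) →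
      ∑ s ∈ S, NCQ (twc (blk α l s) A σ t) (2 * A) H ≤
        C * G ^ 2 / Real.log X ^ A'' * (A ^ 2 * H ^ (1 / 3 : ℝ)) := by
  obtain ⟨C1, η, hC1, hη, hnc⟩ := NC.nc_int (show 0 < δ / 2 by positivity)
  obtain ⟨C3, hC3, hall⟩ := fam_all (show 0 < δ / 2 by positivity)
  set q : ℕ := 3 * (A'' + 3) with hq
  set Cw : ℕ := 8 * q + 2 * (A'' + 3) with hCw
  obtain ⟨c0, hc0, hSW⟩ := SW_twc hδ (19 * q + A'') Cw
  set W : ℝ := ((A'' + 1) / (δ * η)) ^ A'' with hW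
  set C2 : ℝ := 16 * (C1 * 4 * (c0 / 2 + 9 + W)) with hC2
  refine ⟨C2 + C3 * 9 ^ (A'' + 3), Cw, by positivity, by omega, ?_⟩
  intro X A G σ t α hX hA hA1 hAX hG hσ hα hs ht l S H hH hH2
  have hX0 : 0 < X := by linarith
  have hA0 : 0 < A := by linarith
  have hL1 := one_le_log hX
  have hL0 : 0 < Real.log X := by linarith
  have hP : 0 ≤ A ^ 2 * H ^ (1 / 3 : ℝ) := by positivity
  have hG2 : 0 ≤ G ^ 2 := by positivity
  rcases le_or_gt 9 (Real.log X) with h9 | h9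
  · -- large `X`
    have hfam := gam_fam (σ := σ) (t := t) hA0 hG hσ hα.bound
      (fun a ha => ⟨(hα.supp a ha).1, hs a ha⟩) l S
    have hsupp : ∀ s ∈ S, ∀ a, gam α l A G σ t s a ≠ 0 → Primary a ∧ Squarefree a :=
      fun s _ a h => gam_supp (fun a ha => ⟨(hα.supp a ha).1, (hα.supp a ha).2.1⟩) s a h
    have hSWh : NC.SWhyp S (fun s => gam α l A G σ t s) (2 * A) H (Real.log X ^ q)
        (Real.log X ^ (8 * q)) (c0 / 2 / Real.log X ^ (19 * q + A'')) := by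
      refine NC.SWhyp.of_dvd hsupp ?_
      intro s hsS j hj k0 n hn hnH hk0 hcube hNk
      rw [mem_SPB] at hj
      rw [NC.sum_dvd_eq_sum_mul ⟨hj.1.1, hj.2⟩ (gam α l A G σ t s)
        (fun r => toC (sym (k0 * n ^ 3) r)) (hsupp s hsS), NC.PB_eq_SPB]
      have hnX : (N n : ℝ) ≤ X := by
        have h1 : (2 * A) ^ (1 - δ / 2) ≤ (2 * A) ^ (1 : ℝ) :=
          Real.rpow_le_rpow_of_exponent_le (by linarith) (by linarith)
        rw [Real.rpow_one] at h1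
        linarith
      have hk : (N k0 : ℝ) ≤ Real.log X ^ Cw := by
        refine hNk.trans ?_
        calc 9 * (Real.log X ^ q) ^ 2 ≤ Real.log X * (Real.log X ^ q) ^ 2 := by gcongr
          _ = Real.log X ^ (1 + q * 2) := by ring
          _ ≤ Real.log X ^ Cw := pow_le_pow_right₀ hL1 (by omega)
      have hjw : (N j : ℝ) ≤ Real.log X ^ Cw :=
        hj.1.2.trans (pow_le_pow_right₀ hL1 (by omega))
      have hsw := hSW X A (4 * G) t σ hX hA (by linarith) (blk α l s) (blk_class hα l s)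
        (fun a ha => hs a (blk_ne_zero ha)) hσ ht j hj.1.1 hjw k0 n hn hnX hcube hk
      have e : ∑ r ∈ SPB (2 * A / N j), gam α l A G σ t s (j * r) * toC (sym (k0 * n ^ 3) r) =
          ((((4 * G)⁻¹ : ℝ)) : ℂ) * ∑ r ∈ SPB (2 * A / N j),
            twc (blk α l s) A σ t (j * r) * toC (sym (k0 * n ^ 3) r) := by
        rw [mul_sum]
        refine sum_congr rfl fun r _ => ?_
        rw [gam]; ring
      rw [e, norm_mul, Complex.norm_real, Real.norm_of_nonneg (by positivity)]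
      calc (4 * G)⁻¹ * ‖∑ r ∈ SPB (2 * A / N j),
            twc (blk α l s) A σ t (j * r) * toC (sym (k0 * n ^ 3) r)‖
          ≤ (4 * G)⁻¹ * (c0 * (4 * G) * A / Real.log X ^ (19 * q + A'')) := by gcongr
        _ = _ := by field_simp
    have hQ1 : 1 ≤ Real.log X ^ q := one_le_pow₀ hL1
    have hJ1 : 1 ≤ Real.log X ^ (8 * q) := one_le_pow₀ hL1
    have h1 := hnc ℕ S (fun s => gam α l A G σ t s) ⟨hfam⟩ (2 * A) H _ _ _ (by linarith) hH hH2
      hQ1 hJ1 (by positivity) hSWh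
    simp only [← NCQ_eq_NC] at h1
    simp only [NCQ_gam α l hG]
    rw [← mul_sum]
    have hz : (2 * A) ^ (-η) * Real.log X ^ A'' ≤ W := by
      have h3 : Real.log X ^ A'' ≤ W * X ^ (δ * η) := log_pow_le (by positivity) A'' (by linarith)
      have h4 : (2 * A) ^ (-η) ≤ X ^ (-(δ * η)) := by
        calc (2 * A) ^ (-η) ≤ (X ^ δ) ^ (-η) :=
              Real.rpow_le_rpow_of_nonpos (by positivity) (by linarith) (by linarith)
          _ = X ^ (-(δ * η)) := by rw [← Real.rpow_mul hX0.le]; ring_nf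
      calc (2 * A) ^ (-η) * Real.log X ^ A'' ≤ X ^ (-(δ * η)) * (W * X ^ (δ * η)) := by gcongr
        _ = W * (X ^ (-(δ * η)) * X ^ (δ * η)) := by ring
        _ = W := by rw [← Real.rpow_add hX0]; simp
    have hbr := bracket_le (L := Real.log X) (c0 := c0 / 2) (W := W) (q := q) (A'' := A'') hL1 hq
      (by positivity) (lA := Real.log (2 * A)) (Real.log_nonneg (by linarith))
      (Real.log_le_log (by linarith) hAX) hz
    calc 16 * G ^ 2 * ∑ s ∈ S, NCQ (gam α l A G σ t s) (2 * A) H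
        ≤ 16 * G ^ 2 * (C1 * (2 * A) ^ 2 * H ^ (1 / 3 : ℝ) *
          ((c0 / 2 + 9 + W) / Real.log X ^ A'')) := by
          gcongr
          exact h1.trans (by gcongr)
      _ = C2 * G ^ 2 / Real.log X ^ A'' * (A ^ 2 * H ^ (1 / 3 : ℝ)) := by rw [hC2]; ring
      _ ≤ _ := by
          gcongr
          have : 0 ≤ C3 * 9 ^ (A'' + 3) := by positivity
          linarith
  · -- small `X`
    have h1 := hall X A G σ t α hX hA1 hAX hG hσ hα hs l S H hH hH2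
    refine h1.trans ?_
    have h2 : Real.log X ^ 3 ≤ 9 ^ (A'' + 3) / Real.log X ^ A'' := by
      rw [le_div_iff₀ (by positivity), ← pow_add, add_comm 3 A'']
      exact pow_le_pow_left₀ hL0.le h9.le _
    calc C3 * G ^ 2 * Real.log X ^ 3 * (A ^ 2 * H ^ (1 / 3 : ℝ))
        ≤ C3 * G ^ 2 * (9 ^ (A'' + 3) / Real.log X ^ A'') * (A ^ 2 * H ^ (1 / 3 : ℝ)) := by gcongr
      _ = (C3 * 9 ^ (A'' + 3)) * G ^ 2 / Real.log X ^ A'' * (A ^ 2 * H ^ (1 / 3 : ℝ)) := by ring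
      _ ≤ _ := by
          gcongr
          have : 0 ≤ C2 := by positivity
          linarith

end Vale.Agent.P006.DN
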