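import Vale.Agent.P006.DN.NCint

/-!
P006, block DN (helper611): from `NCf` to `NCQ`, dyadic sum over `κ`.
-/

namespace Vale.Agent.P006.DN

open scoped Classical
open Finset DISP

/-- geometric sums, increasing -/
theorem geo_up {r Y : ℝ} (hr : 1 < r) (hY : 0 ≤ Y) (M : ℕ) :
    ∑ m ∈ range M with r ^ m ≤ Y, r ^ m ≤ r / (r - 1) * Y := by
  have hr0 : 0 < r := by linarith
  have hr1 : 0 < r - 1 := by linarith
  induction M with
  | zero => simp; positivity
  | succ M ih =>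
    by_cases h : r ^ M ≤ Y
    · have h1 : (range (M + 1)).filter (fun m => r ^ m ≤ Y) = range (M + 1) := by
        refine filter_true_of_mem fun m hm => ?_
        exact (pow_le_pow_right₀ hr.le (by rw [mem_range] at hm; omega)).trans h
      rw [h1, geom_sum_eq hr.ne']
      rw [div_mul_eq_mul_div]
      refine div_le_div_of_nonneg_right ?_ hr1.le
      rw [pow_succ]
      nlinarith
    · rw [range_add_one, filter_insert, if_neg h]
      exact ih

/-- geometric sums, decreasing -/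
theorem geo_down {q : ℝ} (hq0 : 0 < q) (hq : q < 1) (M : ℕ) : ∀ Y : ℝ, 0 ≤ Y →
    ∑ m ∈ range M with q ^ m ≤ Y, q ^ m ≤ Y / (1 - q) := by
  have hq1 : 0 < 1 - q := by linarith
  induction M with
  | zero => intro Y hY; simp; positivity
  | succ M ih =>
    intro Y hY
    by_cases h : 1 ≤ Y
    · calc ∑ m ∈ range (M + 1) with q ^ m ≤ Y, q ^ m ≤ ∑ m ∈ range (M + 1), q ^ m :=
            sum_le_sum_of_subset_of_nonneg (filter_subset _ _) fun _ _ _ => by positivity
        _ ≤ 1 / (1 - q) := by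
            have e : (q ^ (M + 1) - 1) / (q - 1) = (1 - q ^ (M + 1)) / (1 - q) := by
              rw [div_eq_div_iff (by linarith) hq1.ne']; ring
            rw [geom_sum_eq hq.ne, e]
            refine div_le_div_of_nonneg_right ?_ hq1.le
            have : 0 ≤ q ^ (M + 1) := by positivity
            linarith
        _ ≤ _ := div_le_div_of_nonneg_right h hq1.le
    · have h2 := ih (Y / q) (by positivity)
      rw [sum_filter, sum_range_succ']
      rw [pow_zero, if_neg h, add_zero]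
      have e : ∀ m ∈ range M, (if q ^ (m + 1) ≤ Y then q ^ (m + 1) else 0) =
          q * (if q ^ m ≤ Y / q then q ^ m else 0) := by
        intro m _
        have : q ^ (m + 1) ≤ Y ↔ q ^ m ≤ Y / q := by rw [le_div_iff₀ hq0, pow_succ]
        by_cases hc : q ^ m ≤ Y / q
        · rw [if_pos (this.2 hc), if_pos hc, pow_succ]; ring
        · rw [if_neg (fun h' => hc (this.1 h')), if_neg hc, mul_zero]
      rw [sum_congr rfl e, ← mul_sum, ← sum_filter]
      calc _ ≤ q * (Y / q / (1 - q)) := by gcongr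
        _ = _ := by field_simp

/-- nonnegative double sums: `∑_i ∑'_κ ≤ M` from finite partial sums -/
theorem sum_tsum_le {ι : Type*} (S : Finset ι) (f : ι → O → ℝ) (hf : ∀ i ∈ S, ∀ κ, 0 ≤ f i κ)
    {M : ℝ} (h : ∀ F : Finset O, ∑ i ∈ S, ∑ κ ∈ F, f i κ ≤ M) :
    ∑ i ∈ S, ∑' κ, f i κ ≤ M := by
  have hs : ∀ i ∈ S, Summable (f i) := by
    intro i hi
    refine summable_of_sum_le (c := M) (fun κ => hf i hi κ) fun F => ?_
    refine le_trans ?_ (h F)
    exact single_le_sum (f := fun i => ∑ κ ∈ F, f i κ)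
      (fun j hj => sum_nonneg fun κ _ => hf j hj κ) hi
  rw [← Summable.tsum_finsetSum hs]
  refine Real.tsum_le_of_sum_le (fun κ => sum_nonneg fun i hi => hf i hi κ) fun F => ?_
  rw [sum_comm]
  exact h F

/-- first weight -/
noncomputable def w1 (A B : ℝ) (m : ℕ) : ℝ :=
  if (2 : ℝ) ^ m * B ≤ A ^ 2 then ((2 : ℝ) ^ m * B / A ^ 2) ^ (-(1 / 6) : ℝ) else 0

/-- second weight -/
noncomputable def w2 (A B : ℝ) (m : ℕ) : ℝ :=
  if A ^ 2 < (2 : ℝ) ^ (m + 1) * B then ((2 : ℝ) ^ m * B / A ^ 2) ^ (-2 : ℝ) else 0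

theorem w1_nonneg {A B : ℝ} (hA : 0 < A) (hB : 0 < B) (m : ℕ) : 0 ≤ w1 A B m := by
  rw [w1]; split_ifs <;> positivity

theorem w2_nonneg {A B : ℝ} (hA : 0 < A) (hB : 0 < B) (m : ℕ) : 0 ≤ w2 A B m := by
  rw [w2]; split_ifs <;> positivity

theorem ncTerm_nonneg {A B : ℝ} (hA : 0 < A) (hB : 0 < B) (α : O → ℂ) (j κ : O) :
    0 ≤ ncTerm α A B j κ := by
  rw [ncTerm]
  have h1 := csumI_nonneg α A (-(1 / 3)) j κ
  have h2 := csumI_nonneg α A (3 / 2) j κ
  split_ifs <;> positivity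

theorem ncTerm_le {A B : ℝ} (hA : 0 < A) (hB : 0 < B) (α : O → ℂ) (j : O) {κ : O}
    (hκ : NonCube κ) {m : ℕ} (hm : Nat.log 2 (N κ) = m) :
    ncTerm α A B j κ ≤ (N (EuclideanDomain.gcd j κ) : ℝ) *
      (w1 A B m * csumI α A (-(1 / 3)) j κ + w2 A B m * csumI α A (3 / 2) j κ) := by
  have hN0 : N κ ≠ 0 := by have := N_pos hκ.1; omega
  have h1 : ((2 : ℝ) ^ m) ≤ N κ := by
    have := Nat.pow_log_le_self 2 hN0
    rw [hm] at this
    exact_mod_cast this
  have h2 : (N κ : ℝ) < (2 : ℝ) ^ (m + 1) := by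
    have := Nat.lt_pow_succ_log_self (b := 2) (by norm_num) (N κ)
    rw [hm] at this
    exact_mod_cast this
  have hc1 := csumI_nonneg α A (-(1 / 3)) j κ
  have hc2 := csumI_nonneg α A (3 / 2) j κ
  have hw1 := w1_nonneg hA hB m
  have hw2 := w2_nonneg hA hB m
  rw [ncTerm, if_pos hκ]
  refine mul_le_mul_of_nonneg_left ?_ (Nat.cast_nonneg _)
  split_ifs with h
  · have h3 : (2 : ℝ) ^ m * B ≤ A ^ 2 := (mul_le_mul_of_nonneg_right h1 hB.le).trans h
    have h4 : ((N κ : ℝ) * B / A ^ 2) ^ (-(1 / 6) : ℝ) ≤ w1 A B m := by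
      rw [w1, if_pos h3]
      apply Real.rpow_le_rpow_of_nonpos (by positivity) _ (by norm_num)
      gcongr
    calc _ ≤ w1 A B m * csumI α A (-(1 / 3)) j κ := by gcongr
      _ ≤ _ := by
          have : 0 ≤ w2 A B m * csumI α A (3 / 2) j κ := by positivity
          linarith
  · push Not at h
    have h3 : A ^ 2 < (2 : ℝ) ^ (m + 1) * B :=
      h.trans_le (mul_le_mul_of_nonneg_right h2.le hB.le)
    have h4 : ((N κ : ℝ) * B / A ^ 2) ^ (-2 : ℝ) ≤ w2 A B m := by
      rw [w2, if_pos h3]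
      apply Real.rpow_le_rpow_of_nonpos (by positivity) _ (by norm_num)
      gcongr
    calc _ ≤ w2 A B m * csumI α A (3 / 2) j κ := by gcongr
      _ ≤ _ := by
          have : 0 ≤ w1 A B m * csumI α A (-(1 / 3)) j κ := by positivity
          linarith

theorem sum_finite_le {A B : ℝ} (hA : 0 < A) (hB : 0 < B) (S : Finset ℕ) (α : ℕ → O → ℂ) {Q : ℝ}
    (h : ∀ M : ℕ, ∑ m ∈ range M, (w1 A B m * TS S α A (-(1 / 3)) (2 ^ (m + 1)) +
      w2 A B m * TS S α A (3 / 2) (2 ^ (m + 1))) ≤ Q) (F : Finset O) :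
    ∑ x ∈ S ×ˢ SPB (2 * A), ∑ κ ∈ F, ncTerm (α x.1) A B x.2 κ ≤ Q := by
  -- the range
  obtain ⟨M, hM⟩ : ∃ M : ℕ, ∀ κ ∈ F, Nat.log 2 (N κ) < M := by
    refine ⟨(F.sup fun κ => Nat.log 2 (N κ)) + 1, fun κ hκ => ?_⟩
    exact Nat.lt_succ_of_le (le_sup (f := fun κ => Nat.log 2 (N κ)) hκ)
  refine le_trans ?_ (h M)
  -- reorganise
  have h1 : ∀ x ∈ S ×ˢ SPB (2 * A), ∑ κ ∈ F, ncTerm (α x.1) A B x.2 κ ≤
      ∑ m ∈ range M, ∑ κ ∈ (HB.Hn (2 ^ (m + 1))).filter NonCube,
        (N (EuclideanDomain.gcd x.2 κ) : ℝ) * (w1 A B m * csumI (α x.1) A (-(1 / 3)) x.2 κ +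
          w2 A B m * csumI (α x.1) A (3 / 2) x.2 κ) := by
    intro x _
    have e1 : ∑ κ ∈ F, ncTerm (α x.1) A B x.2 κ =
        ∑ κ ∈ F.filter NonCube, ncTerm (α x.1) A B x.2 κ := by
      rw [sum_filter]
      refine sum_congr rfl fun κ _ => ?_
      by_cases hc : NonCube κ
      · rw [if_pos hc]
      · rw [if_neg hc, ncTerm, if_neg hc]
    rw [e1, ← sum_fiberwise_of_maps_to (g := fun κ => Nat.log 2 (N κ)) (t := range M)]
    · refine sum_le_sum fun m _ => ?_
      calc ∑ κ ∈ (F.filter NonCube).filter (fun κ => Nat.log 2 (N κ) = m),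
            ncTerm (α x.1) A B x.2 κ
          ≤ ∑ κ ∈ (F.filter NonCube).filter (fun κ => Nat.log 2 (N κ) = m),
            (N (EuclideanDomain.gcd x.2 κ) : ℝ) * (w1 A B m * csumI (α x.1) A (-(1 / 3)) x.2 κ +
          w2 A B m * csumI (α x.1) A (3 / 2) x.2 κ) := by
            refine sum_le_sum fun κ hκ => ?_
            rw [mem_filter, mem_filter] at hκ
            exact ncTerm_le hA hB _ _ hκ.1.2 hκ.2
        _ ≤ _ := by
            refine sum_le_sum_of_subset_of_nonneg ?_ fun κ _ _ => ?_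
            · intro κ hκ
              rw [mem_filter, mem_filter] at hκ
              rw [mem_filter, HB.mem_Hn]
              refine ⟨⟨?_, hκ.1.2.1⟩, hκ.1.2⟩
              have := Nat.lt_pow_succ_log_self (b := 2) (by norm_num) (N κ)
              rw [hκ.2] at this
              exact_mod_cast this.le
            · have h1 := csumI_nonneg (α x.1) A (-(1 / 3)) x.2 κ
              have h2 := csumI_nonneg (α x.1) A (3 / 2) x.2 κ
              have h3 := w1_nonneg hA hB m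
              have h4 := w2_nonneg hA hB m
              positivity
    · intro κ hκ
      rw [mem_filter] at hκ
      exact mem_range.2 (hM κ hκ.1)
  calc _ ≤ ∑ x ∈ S ×ˢ SPB (2 * A), ∑ m ∈ range M, ∑ κ ∈ (HB.Hn (2 ^ (m + 1))).filter NonCube,
        (N (EuclideanDomain.gcd x.2 κ) : ℝ) * (w1 A B m * csumI (α x.1) A (-(1 / 3)) x.2 κ +
          w2 A B m * csumI (α x.1) A (3 / 2) x.2 κ) := sum_le_sum h1
    _ = _ := by
        rw [sum_comm]
        refine sum_congr rfl fun m _ => ?_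
        rw [sum_product, TS, TS, mul_sum, mul_sum, ← sum_add_distrib]
        refine sum_congr rfl fun s _ => ?_
        rw [mul_sum, mul_sum, ← sum_add_distrib]
        refine sum_congr rfl fun j _ => ?_
        rw [mul_sum, mul_sum, ← sum_add_distrib]
        exact sum_congr rfl fun κ _ => by ring


/-- the family of `NCf` is bounded by the dyadic sums -/
theorem sum_NCf_le {A B : ℝ} (hA : 0 < A) (hB : 0 < B) (S : Finset ℕ) (α : ℕ → O → ℂ) {Q : ℝ}
    (h : ∀ M : ℕ, ∑ m ∈ range M, (w1 A B m * TS S α A (-(1 / 3)) (2 ^ (m + 1)) +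
      w2 A B m * TS S α A (3 / 2) (2 ^ (m + 1))) ≤ Q) :
    ∑ s ∈ S, NCf (α s) A B ≤ (B / A) * Q := by
  have e : ∑ s ∈ S, NCf (α s) A B = (B / A) * ∑ x ∈ S ×ˢ SPB (2 * A),
      ∑' κ, ncTerm (α x.1) A B x.2 κ := by
    rw [sum_product, mul_sum]
    exact sum_congr rfl fun s _ => rfl
  rw [e]
  refine mul_le_mul_of_nonneg_left ?_ (by positivity)
  have hgoal : ∀ F : Finset O, ∑ x ∈ S ×ˢ SPB (2 * A), ∑ κ ∈ F, ncTerm (α x.1) A B x.2 κ ≤ Q :=
    sum_finite_le hA hB S α h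
  exact sum_tsum_le (ι := ℕ × O) (S ×ˢ SPB (2 * A)) (fun x κ => ncTerm (α x.1) A B x.2 κ)
    (fun x _ κ => ncTerm_nonneg hA hB _ _ _) hgoal

end Vale.Agent.P006.DN
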