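import Vale.Agent.P006.DN.NCdy

/-!
P006, block DN (helper611): the dyadic sum over `κ` evaluated.
-/

namespace Vale.Agent.P006.DN

open scoped Classical
open Finset DISP

theorem pow_two_rpow (m : ℕ) (e : ℝ) : ((2 : ℝ) ^ m) ^ e = ((2 : ℝ) ^ e) ^ m := by
  rw [← Real.rpow_natCast 2 m, ← Real.rpow_mul (by norm_num), ← Real.rpow_natCast (2 ^ e) m,
    ← Real.rpow_mul (by norm_num), mul_comm]

/-- the absolute constant of the dyadic sum -/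
theorem dyadic_total : ∃ C : ℝ, 0 ≤ C ∧ ∀ (A B H0 E F0 : ℝ) (S : Finset ℕ) (α : ℕ → O → ℂ),
    0 < A → 0 < B → 0 ≤ E → 0 ≤ F0 → 0 < H0 → 2 * (A ^ 2 / B) ≤ H0 →
    (∀ σ : ℝ, (σ = -(1 / 3) ∨ σ = 3 / 2) → ∀ H : ℝ, 1 ≤ H → H ≤ H0 →
      TS S α A σ H ≤ E * H ^ (1 / 3 : ℝ)) →
    (∀ σ : ℝ, (σ = -(1 / 3) ∨ σ = 3 / 2) → ∀ H : ℝ, 1 ≤ H → H0 ≤ H →
      TS S α A σ H ≤ F0 * (H / H0) ^ (3 / 2 : ℝ)) →
    ∀ M : ℕ, ∑ m ∈ range M, (w1 A B m * TS S α A (-(1 / 3)) (2 ^ (m + 1)) +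
      w2 A B m * TS S α A (3 / 2) (2 ^ (m + 1))) ≤
        C * (E * (A ^ 2 / B) ^ (1 / 3 : ℝ) + F0 * ((A ^ 2 / B) / H0) ^ 2) := by
  set r : ℝ := (2 : ℝ) ^ (1 / 6 : ℝ) with hr
  set q : ℝ := (2 : ℝ) ^ (-(5 / 3) : ℝ) with hq
  set p : ℝ := (2 : ℝ) ^ (-(1 / 2) : ℝ) with hp
  have hr1 : 1 < r := Real.one_lt_rpow (by norm_num) (by norm_num)
  have hr0 : 0 < r := by linarith
  have hq0 : 0 < q := by positivity
  have hq1 : q < 1 := Real.rpow_lt_one_of_one_lt_of_neg (by norm_num) (by norm_num)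
  have hp0 : 0 < p := by positivity
  have hp1 : p < 1 := Real.rpow_lt_one_of_one_lt_of_neg (by norm_num) (by norm_num)
  have hr2 : 0 < r - 1 := by linarith
  have hq2 : 0 < 1 - q := by linarith
  have hp2 : 0 < 1 - p := by linarith
  set c1 : ℝ := (2 : ℝ) ^ (1 / 3 : ℝ) * (r / (r - 1)) with hc1
  set c2 : ℝ := (2 : ℝ) ^ (1 / 3 : ℝ) * (1 / q / (1 - q)) with hc2
  set c3 : ℝ := (2 : ℝ) ^ (3 / 2 : ℝ) * (1 / p / (1 - p)) with hc3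
  refine ⟨c1 + c2 + c3, by positivity, ?_⟩
  intro A B H0 E F0 S α hA hB hE hF0 hH0 hK h1 h2 M
  set K := A ^ 2 / B with hKdef
  have hK0 : 0 < K := by positivity
  have hx : ∀ m : ℕ, (2 : ℝ) ^ m * B / A ^ 2 = 2 ^ m / K := by
    intro m; rw [hKdef]; field_simp
  -- pointwise bound
  have key : ∀ m : ℕ, w1 A B m * TS S α A (-(1 / 3)) (2 ^ (m + 1)) +
      w2 A B m * TS S α A (3 / 2) (2 ^ (m + 1)) ≤
      (E * (2 : ℝ) ^ (1 / 3 : ℝ) * K ^ (1 / 6 : ℝ)) * (if r ^ m ≤ K ^ (1 / 6 : ℝ) then r ^ m else 0)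
      + (E * (2 : ℝ) ^ (1 / 3 : ℝ) * K ^ 2) *
          (if q ^ m ≤ K ^ (-(5 / 3) : ℝ) / q then q ^ m else 0)
      + (F0 * (2 : ℝ) ^ (3 / 2 : ℝ) * K ^ 2 * H0 ^ (-(3 / 2) : ℝ)) *
          (if p ^ m ≤ H0 ^ (-(1 / 2) : ℝ) / p then p ^ m else 0) := by
    intro m
    have h2m : (0 : ℝ) < 2 ^ m := by positivity
    have h2m1 : (1 : ℝ) ≤ 2 ^ (m + 1) := one_le_pow₀ (by norm_num)
    have hT1 := TS_nonneg S α A (-(1 / 3)) (2 ^ (m + 1))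
    have hT2 := TS_nonneg S α A (3 / 2) (2 ^ (m + 1))
    have n1 : 0 ≤ (E * (2 : ℝ) ^ (1 / 3 : ℝ) * K ^ (1 / 6 : ℝ)) *
        (if r ^ m ≤ K ^ (1 / 6 : ℝ) then r ^ m else 0) := by split_ifs <;> positivity
    have n2 : 0 ≤ (E * (2 : ℝ) ^ (1 / 3 : ℝ) * K ^ 2) *
          (if q ^ m ≤ K ^ (-(5 / 3) : ℝ) / q then q ^ m else 0) := by split_ifs <;> positivity
    have n3 : 0 ≤ (F0 * (2 : ℝ) ^ (3 / 2 : ℝ) * K ^ 2 * H0 ^ (-(3 / 2) : ℝ)) *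
          (if p ^ m ≤ H0 ^ (-(1 / 2) : ℝ) / p then p ^ m else 0) := by split_ifs <;> positivity
    have t1 : w1 A B m * TS S α A (-(1 / 3)) (2 ^ (m + 1)) ≤
        (E * (2 : ℝ) ^ (1 / 3 : ℝ) * K ^ (1 / 6 : ℝ)) *
        (if r ^ m ≤ K ^ (1 / 6 : ℝ) then r ^ m else 0) := by
      rw [w1]
      split_ifs with hc1 hc2 hc2
      · have hmK : (2 : ℝ) ^ m ≤ K := by rw [hKdef, le_div_iff₀ hB]; exact hc1
        have hH : (2 : ℝ) ^ (m + 1) ≤ H0 := by rw [pow_succ]; linarith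
        have h3 := h1 (-(1 / 3)) (Or.inl rfl) _ h2m1 hH
        rw [hx]
        calc (2 ^ m / K) ^ (-(1 / 6) : ℝ) * TS S α A (-(1 / 3)) (2 ^ (m + 1))
            ≤ (2 ^ m / K) ^ (-(1 / 6) : ℝ) * (E * ((2 : ℝ) ^ (m + 1)) ^ (1 / 3 : ℝ)) := by
              gcongr
          _ = (E * (2 : ℝ) ^ (1 / 3 : ℝ) * K ^ (1 / 6 : ℝ)) *
              (((2 : ℝ) ^ m) ^ (-(1 / 6) : ℝ) * ((2 : ℝ) ^ m) ^ (1 / 3 : ℝ)) := by
              rw [Real.div_rpow h2m.le hK0.le, Real.rpow_neg hK0.le, pow_succ,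
                Real.mul_rpow h2m.le (by norm_num)]
              field_simp
          _ = _ := by
              rw [← Real.rpow_add h2m, pow_two_rpow, hr]
              norm_num
      · exfalso
        apply hc2
        have hmK : (2 : ℝ) ^ m ≤ K := by rw [hKdef, le_div_iff₀ hB]; exact hc1
        rw [hr, ← pow_two_rpow]
        gcongr
      · rw [zero_mul]; positivity
      · rw [zero_mul, mul_zero]
    have t2 : w2 A B m * TS S α A (3 / 2) (2 ^ (m + 1)) ≤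
        (E * (2 : ℝ) ^ (1 / 3 : ℝ) * K ^ 2) *
          (if q ^ m ≤ K ^ (-(5 / 3) : ℝ) / q then q ^ m else 0)
      + (F0 * (2 : ℝ) ^ (3 / 2 : ℝ) * K ^ 2 * H0 ^ (-(3 / 2) : ℝ)) *
          (if p ^ m ≤ H0 ^ (-(1 / 2) : ℝ) / p then p ^ m else 0) := by
      rw [w2]
      by_cases hc : A ^ 2 < (2 : ℝ) ^ (m + 1) * B
      swap
      · rw [if_neg hc, zero_mul]; linarith
      rw [if_pos hc, hx]
      have hmK : K < (2 : ℝ) ^ (m + 1) := by rw [hKdef, div_lt_iff₀ hB]; exact hc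
      have hw : (2 ^ m / K) ^ (-2 : ℝ) = K ^ 2 * ((2 : ℝ) ^ m) ^ (-2 : ℝ) := by
        rw [Real.div_rpow h2m.le hK0.le, Real.rpow_neg hK0.le, Real.rpow_two]
        field_simp
      rcases le_total ((2 : ℝ) ^ (m + 1)) H0 with hH | hH
      · have h3 := h1 (3 / 2) (Or.inr rfl) _ h2m1 hH
        have hcond : q ^ m ≤ K ^ (-(5 / 3) : ℝ) / q := by
          rw [le_div_iff₀ hq0, ← pow_succ, hq, ← pow_two_rpow]
          exact Real.rpow_le_rpow_of_nonpos hK0 hmK.le (by norm_num)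
        rw [if_pos hcond]
        refine le_trans ?_ (le_add_of_nonneg_right n3)
        calc (2 ^ m / K) ^ (-2 : ℝ) * TS S α A (3 / 2) (2 ^ (m + 1))
            ≤ (2 ^ m / K) ^ (-2 : ℝ) * (E * ((2 : ℝ) ^ (m + 1)) ^ (1 / 3 : ℝ)) := by gcongr
          _ = (E * (2 : ℝ) ^ (1 / 3 : ℝ) * K ^ 2) *
              (((2 : ℝ) ^ m) ^ (-2 : ℝ) * ((2 : ℝ) ^ m) ^ (1 / 3 : ℝ)) := by
              rw [hw, pow_succ (2 : ℝ) m, Real.mul_rpow h2m.le (by norm_num)]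
              ring
          _ = _ := by
              rw [← Real.rpow_add h2m, pow_two_rpow, hq]
              norm_num
      · have h3 := h2 (3 / 2) (Or.inr rfl) _ h2m1 hH
        have hcond : p ^ m ≤ H0 ^ (-(1 / 2) : ℝ) / p := by
          rw [le_div_iff₀ hp0, ← pow_succ, hp, ← pow_two_rpow]
          exact Real.rpow_le_rpow_of_nonpos hH0 hH (by norm_num)
        rw [if_pos hcond]
        refine le_trans ?_ (le_add_of_nonneg_left n2)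
        calc (2 ^ m / K) ^ (-2 : ℝ) * TS S α A (3 / 2) (2 ^ (m + 1))
            ≤ (2 ^ m / K) ^ (-2 : ℝ) * (F0 * ((2 : ℝ) ^ (m + 1) / H0) ^ (3 / 2 : ℝ)) := by gcongr
          _ = (F0 * (2 : ℝ) ^ (3 / 2 : ℝ) * K ^ 2 * H0 ^ (-(3 / 2) : ℝ)) *
              (((2 : ℝ) ^ m) ^ (-2 : ℝ) * ((2 : ℝ) ^ m) ^ (3 / 2 : ℝ)) := by
              rw [hw, pow_succ (2 : ℝ) m, Real.div_rpow (by positivity) hH0.le,
                Real.mul_rpow h2m.le (by norm_num), Real.rpow_neg hH0.le]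
              field_simp
          _ = _ := by
              rw [← Real.rpow_add h2m, pow_two_rpow, hp]
              norm_num
    linarith
  -- summation
  refine (sum_le_sum fun m _ => key m).trans ?_
  rw [sum_add_distrib, sum_add_distrib, ← mul_sum, ← mul_sum, ← mul_sum, ← sum_filter,
    ← sum_filter, ← sum_filter]
  have s1 := geo_up hr1 (show (0 : ℝ) ≤ K ^ (1 / 6 : ℝ) by positivity) M
  have s2 := geo_down hq0 hq1 M (K ^ (-(5 / 3) : ℝ) / q) (by positivity)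
  have s3 := geo_down hp0 hp1 M (H0 ^ (-(1 / 2) : ℝ) / p) (by positivity)
  have e1 : (E * (2 : ℝ) ^ (1 / 3 : ℝ) * K ^ (1 / 6 : ℝ)) * (r / (r - 1) * K ^ (1 / 6 : ℝ)) =
      c1 * (E * K ^ (1 / 3 : ℝ)) := by
    have : K ^ (1 / 3 : ℝ) = K ^ (1 / 6 : ℝ) * K ^ (1 / 6 : ℝ) := by
      rw [← Real.rpow_add hK0]; norm_num
    rw [this, hc1]; ring
  have e2 : (E * (2 : ℝ) ^ (1 / 3 : ℝ) * K ^ 2) * (K ^ (-(5 / 3) : ℝ) / q / (1 - q)) =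
      c2 * (E * K ^ (1 / 3 : ℝ)) := by
    have : K ^ (1 / 3 : ℝ) = K ^ 2 * K ^ (-(5 / 3) : ℝ) := by
      rw [← Real.rpow_natCast, ← Real.rpow_add hK0]; norm_num
    rw [this, hc2]; ring
  have e3 : (F0 * (2 : ℝ) ^ (3 / 2 : ℝ) * K ^ 2 * H0 ^ (-(3 / 2) : ℝ)) *
      (H0 ^ (-(1 / 2) : ℝ) / p / (1 - p)) = c3 * (F0 * (K / H0) ^ 2) := by
    have : (K / H0) ^ 2 = K ^ 2 * (H0 ^ (-(3 / 2) : ℝ) * H0 ^ (-(1 / 2) : ℝ)) := by
      rw [← Real.rpow_add hH0, div_pow, div_eq_mul_inv]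
      norm_num
    rw [this, hc3]; ring
  have hc1' : 0 ≤ c1 := by positivity
  have hc2' : 0 ≤ c2 := by positivity
  have hc3' : 0 ≤ c3 := by positivity
  have a1 : 0 ≤ E * K ^ (1 / 3 : ℝ) := by positivity
  have a2 : 0 ≤ F0 * (K / H0) ^ 2 := by positivity
  calc _ ≤ (E * (2 : ℝ) ^ (1 / 3 : ℝ) * K ^ (1 / 6 : ℝ)) * (r / (r - 1) * K ^ (1 / 6 : ℝ)) +
      (E * (2 : ℝ) ^ (1 / 3 : ℝ) * K ^ 2) * (K ^ (-(5 / 3) : ℝ) / q / (1 - q)) +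
      (F0 * (2 : ℝ) ^ (3 / 2 : ℝ) * K ^ 2 * H0 ^ (-(3 / 2) : ℝ)) *
      (H0 ^ (-(1 / 2) : ℝ) / p / (1 - p)) := by gcongr
    _ = c1 * (E * K ^ (1 / 3 : ℝ)) + c2 * (E * K ^ (1 / 3 : ℝ)) + c3 * (F0 * (K / H0) ^ 2) := by
        rw [e1, e2, e3]
    _ ≤ _ := by nlinarith [mul_nonneg hc1' a1, mul_nonneg hc1' a2, mul_nonneg hc2' a1,
        mul_nonneg hc2' a2, mul_nonneg hc3' a1, mul_nonneg hc3' a2]

end Vale.Agent.P006.DN
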