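import Vale.Agent.P006.DN.NCint
import Vale.Agent.P006.DN.EM
import Vale.Agent.P006.DN.Cls
import Vale.Agent.P006.H570.SymInst

/-!
P006, block DN (helper611): the Siegel–Walfisz input for the twisted coefficients.
-/

namespace Vale.Agent.P006

open Finset VR

/-- a bounded monotone or antitone function has bounded variation -/
theorem BV_of_monotone {g : ℕ → ℝ} {M : ℝ} (hg : Monotone g ∨ Antitone g) (h0 : ∀ n, 0 ≤ g n)
    (hM : ∀ n, g n ≤ M) : BV (fun n => (g n : ℂ)) (2 * M) := by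
  intro n
  have h1 : ∑ j ∈ range n, ‖((g j : ℝ) : ℂ) - ((g (j + 1) : ℝ) : ℂ)‖ ≤ M := by
    have e : ∀ j, ‖((g j : ℝ) : ℂ) - ((g (j + 1) : ℝ) : ℂ)‖ = |g j - g (j + 1)| := by
      intro j
      rw [← Complex.ofReal_sub, Complex.norm_real, Real.norm_eq_abs]
    simp only [e]
    rcases hg with hg | hg
    · have e2 : ∀ j, |g j - g (j + 1)| = g (j + 1) - g j := by
        intro j
        rw [abs_sub_comm, abs_of_nonneg]
        have := hg (Nat.le_succ j)
        simp only [Nat.succ_eq_add_one] at this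
        linarith
      simp only [e2]
      rw [sum_range_sub]
      have := h0 0
      have := hM n
      linarith
    · have e2 : ∀ j, |g j - g (j + 1)| = g j - g (j + 1) := by
        intro j
        rw [abs_of_nonneg]
        have := hg (Nat.le_succ j)
        simp only [Nat.succ_eq_add_one] at this
        linarith
      simp only [e2]
      rw [sum_range_sub']
      have := h0 n
      have := hM 0
      linarith
  have h2 : ‖((g n : ℝ) : ℂ)‖ ≤ M := by
    rw [Complex.norm_real, Real.norm_of_nonneg (h0 n)]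
    exact hM n
  linarith

/-- multiplication of a class `G` coefficient by a bounded monotone function of the norm -/
theorem ClassG.mulMono {α : O → ℂ} {X G : ℝ} (h : ClassG α X G) {g : ℕ → ℝ} {M : ℝ} (hM1 : 1 ≤ M)
    (hg : Monotone g ∨ Antitone g) (h0 : ∀ n, 0 ≤ g n) (hM : ∀ n, g n ≤ M) :
    ClassG (fun a => α a * (g (N a) : ℂ)) X (4 * G * M) := by
  have hG := h.nonneg
  refine ⟨?_, ?_, ?_⟩
  · intro a ha
    exact h.supp a (left_ne_zero_of_mul ha)
  · intro a
    rw [norm_mul, Complex.norm_real, Real.norm_of_nonneg (h0 _)]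
    calc ‖α a‖ * g (N a) ≤ G * M := mul_le_mul (h.bound a) (hM _) (h0 _) hG
      _ ≤ 4 * G * M := by nlinarith [mul_nonneg hG (zero_le_one.trans hM1)]
  · intro m hm
    obtain ⟨v, h1, h2⟩ := h.str m hm
    have hv : BV v G := h1
    have hm' : Monotone fun n : ℕ => N m * n := fun a b hab => Nat.mul_le_mul_left _ hab
    have hI : BV (fun n => ((g (N m * n) : ℝ) : ℂ)) (2 * M) :=
      BV_of_monotone (g := fun n => g (N m * n))
        (hg.elim (fun h => Or.inl (h.comp hm')) fun h => Or.inr (h.comp_monotone hm'))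
        (fun n => h0 _) fun n => hM _
    have hb := hv.mul hI
    refine ⟨_, hb.mono (by linarith), fun p hp hpp hq => ?_⟩
    rw [N_mul, h2 p hp hpp hq]

theorem ClassG.restrictX {α : O → ℂ} {X Y G : ℝ} (h : ClassG α X G)
    (hY : ∀ a, α a ≠ 0 → (N a : ℝ) ≤ Y) : ClassG α Y G where
  supp := fun a ha => ⟨(h.supp a ha).1, (h.supp a ha).2.1, hY a ha⟩
  bound := h.bound
  str := h.str

theorem ClassG.toH570 {α : O → ℂ} {X G : ℝ} (h : ClassG α X G) : H570.ClassG α X G where
  supp := h.supp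
  bound := h.bound
  str := fun m hm => by
    obtain ⟨v, h1, h2⟩ := h.str m hm
    refine ⟨v, h1, fun p hpp hp hq => h2 p hp hpp fun q hqm => ?_⟩
    rw [mem_pdv hm.ne_zero] at hqm
    exact hq q hqm.1 hqm.2.1 hqm.2.2

namespace DN

open scoped Classical

/-- the clamped power `(N a / A)^σ` -/
noncomputable def clp (A σ : ℝ) (n : ℕ) : ℝ := (min (max ((n : ℝ) / A) 1) 2) ^ σ

theorem clp_nonneg (A σ : ℝ) (n : ℕ) : 0 ≤ clp A σ n := by
  unfold clp
  have : (0 : ℝ) ≤ min (max ((n : ℝ) / A) 1) 2 :=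
    le_min (le_max_of_le_right (by norm_num)) (by norm_num)
  positivity

theorem clamp_mem (x : ℝ) : 1 ≤ min (max x 1) 2 ∧ min (max x 1) 2 ≤ 2 :=
  ⟨le_min (le_max_right _ _) (by norm_num), min_le_right _ _⟩

theorem clp_le {A σ : ℝ} (hσ : σ ≤ 3 / 2) (n : ℕ) : clp A σ n ≤ 4 := by
  have h := clamp_mem ((n : ℝ) / A)
  unfold clp
  calc (min (max ((n : ℝ) / A) 1) 2) ^ σ ≤ (min (max ((n : ℝ) / A) 1) 2) ^ (2 : ℝ) :=
        Real.rpow_le_rpow_of_exponent_le h.1 (by linarith)
    _ ≤ 2 ^ (2 : ℝ) := by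
        apply Real.rpow_le_rpow (by linarith) h.2 (by norm_num)
    _ = 4 := by norm_num

theorem clp_mono {A : ℝ} (hA : 0 < A) (σ : ℝ) : Monotone (clp A σ) ∨ Antitone (clp A σ) := by
  have hb : Monotone fun n : ℕ => min (max ((n : ℝ) / A) 1) 2 := by
    intro a b hab
    have : (a : ℝ) / A ≤ b / A := by
      have : (a : ℝ) ≤ b := by exact_mod_cast hab
      gcongr
    exact min_le_min (max_le_max this le_rfl) le_rfl
  rcases le_total 0 σ with h | h
  · left
    intro a b hab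
    exact Real.rpow_le_rpow (by have := (clamp_mem ((a : ℝ) / A)).1; linarith) (hb hab) h
  · right
    intro a b hab
    exact Real.rpow_le_rpow_of_nonpos (by have := (clamp_mem ((a : ℝ) / A)).1; linarith) (hb hab) h

/-- the twisted coefficient, factorised -/
theorem twc_mul {α : O → ℂ} {A σ t : ℝ} (hA : 0 < A)
    (hs : ∀ a, α a ≠ 0 → A < (N a : ℝ) ∧ (N a : ℝ) ≤ 2 * A) {j r : O} (hj : Primary j)
    (hr : Primary r) :
    twc α A σ t (j * r) = ((A : ℂ) ^ (-((t : ℂ) * Complex.I)) * (N j : ℂ) ^ ((t : ℂ) * Complex.I)) *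
      (H570.dil j (fun a => α a * (clp A σ (N a) : ℂ)) r * H570.nit (-t) r) := by
  rw [twc, H570.dil, if_pos hr]
  by_cases h0 : α (j * r) = 0
  · rw [h0]; ring
  obtain ⟨h1, h2⟩ := hs _ h0
  have hNj : (0 : ℝ) < N j := by exact_mod_cast N_pos hj.ne_zero
  have hNr : (0 : ℝ) < N r := by exact_mod_cast N_pos hr.ne_zero
  have hN : (0 : ℝ) < N (j * r) := by linarith
  have hx1 : 1 < (N (j * r) : ℝ) / A := by rw [lt_div_iff₀ hA]; linarith
  have hx2 : (N (j * r) : ℝ) / A ≤ 2 := by rw [div_le_iff₀ hA]; linarith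
  have hx0 : 0 < (N (j * r) : ℝ) / A := by linarith
  have hcl : clp A σ (N (j * r)) = ((N (j * r) : ℝ) / A) ^ σ := by
    rw [clp, max_eq_left hx1.le, min_eq_left hx2]
  have e1 : (((N (j * r) : ℝ) / A : ℝ) : ℂ) ^ ((σ : ℂ) + t * Complex.I) =
      (clp A σ (N (j * r)) : ℂ) * (((N (j * r) : ℝ) / A : ℝ) : ℂ) ^ ((t : ℂ) * Complex.I) := by
    rw [Complex.cpow_add _ _ (by exact_mod_cast hx0.ne'), hcl, Complex.ofReal_cpow hx0.le]
  have e2 : (((N (j * r) : ℝ) / A : ℝ) : ℂ) ^ ((t : ℂ) * Complex.I) =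
      (A : ℂ) ^ (-((t : ℂ) * Complex.I)) * (N j : ℂ) ^ ((t : ℂ) * Complex.I) *
        (N r : ℂ) ^ ((t : ℂ) * Complex.I) := by
    have h3 : ((N (j * r) : ℝ) / A : ℝ) = A⁻¹ * ((N j : ℝ) * N r) := by
      rw [N_mul]; push_cast; field_simp
    rw [h3, Complex.ofReal_mul, Complex.mul_cpow_ofReal_nonneg (by positivity) (by positivity),
      Complex.ofReal_mul, Complex.mul_cpow_ofReal_nonneg (by positivity) (by positivity),
      Complex.ofReal_inv, Complex.inv_cpow _ _ (by
        rw [Complex.arg_ofReal_of_nonneg hA.le]; exact Real.pi_pos.ne), Complex.cpow_neg]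
    simp only [Complex.ofReal_natCast]
    ring
  have e3 : H570.nit (-t) r = (N r : ℂ) ^ ((t : ℂ) * Complex.I) := by
    rw [H570.nit]
    congr 1
    push_cast
    ring
  rw [e1, e2, e3]
  ring

/-- comparison of logarithms: `X' = 2A / N j` -/
theorem log_compare {δ : ℝ} (hδ : 0 < δ) (Cw : ℕ) : ∃ X1 : ℝ, 3 ≤ X1 ∧ ∀ X A n : ℝ, X1 ≤ X →
    X ^ δ ≤ A → 1 ≤ n → n ≤ Real.log X ^ Cw →
      3 ≤ 2 * A / n ∧ δ / 2 * Real.log X ≤ Real.log (2 * A / n) := by
  -- `(log X)^Cw ≤ c X^{δ/4}`, and `X^{δ/4} ≥ 3 c`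
  set c : ℝ := ((Cw + 1) / (δ / 4)) ^ Cw with hc
  have hc0 : 0 ≤ c := by positivity
  set X1 : ℝ := max 3 ((3 * (c + 1)) ^ (4 / δ)) with hX1
  refine ⟨X1, le_max_left _ _, fun X A n hX hA hn1 hn => ?_⟩
  have hX3 : 3 ≤ X := (le_max_left _ _).trans hX
  have hX0 : 0 < X := by linarith
  have h1X : 1 ≤ X := by linarith
  have h1 : Real.log X ^ Cw ≤ c * X ^ (δ / 4) := log_pow_le (by positivity) Cw h1X
  have h2 : 3 * (c + 1) ≤ X ^ (δ / 4) := by
    have h3 : (3 * (c + 1)) ^ (4 / δ) ≤ X := (le_max_right _ _).trans hX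
    calc 3 * (c + 1) = ((3 * (c + 1)) ^ (4 / δ)) ^ (δ / 4) := by
          rw [← Real.rpow_mul (by positivity)]
          have : 4 / δ * (δ / 4) = 1 := by field_simp
          rw [this, Real.rpow_one]
      _ ≤ X ^ (δ / 4) := Real.rpow_le_rpow (by positivity) h3 (by positivity)
  have hn0 : 0 < n := by linarith
  have hP : 0 < X ^ (δ / 4) := by positivity
  have hP1 : 3 ≤ X ^ (δ / 4) := by linarith
  -- `n ≤ X^{δ/2}/3`... and `2A/n ≥ X^{δ/2}`
  have h4 : n ≤ X ^ (δ / 4) * X ^ (δ / 4) := by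
    calc n ≤ c * X ^ (δ / 4) := hn.trans h1
      _ ≤ X ^ (δ / 4) * X ^ (δ / 4) := by
          gcongr
          linarith
  have h5 : X ^ δ = X ^ (δ / 4) * X ^ (δ / 4) * (X ^ (δ / 4) * X ^ (δ / 4)) := by
    rw [← Real.rpow_add hX0, ← Real.rpow_add hX0]
    congr 1; ring
  have h6 : X ^ (δ / 4) * X ^ (δ / 4) ≤ 2 * A / n := by
    rw [le_div_iff₀ hn0]
    calc X ^ (δ / 4) * X ^ (δ / 4) * n ≤
        X ^ (δ / 4) * X ^ (δ / 4) * (X ^ (δ / 4) * X ^ (δ / 4)) := by gcongr
      _ = X ^ δ := h5.symm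
      _ ≤ A := hA
      _ ≤ 2 * A := by
          have : 0 < A := lt_of_lt_of_le (by positivity) hA
          linarith
  refine ⟨by nlinarith, ?_⟩
  have h7 : Real.log (X ^ (δ / 4) * X ^ (δ / 4)) = δ / 2 * Real.log X := by
    rw [← Real.rpow_add hX0, Real.log_rpow hX0]; ring
  rw [← h7]
  exact Real.log_le_log (by positivity) h6

/-- **SW** for the twisted coefficients -/
theorem SW_twc {δ : ℝ} (hδ : 0 < δ) (Aw Cw : ℕ) : ∃ c0 : ℝ, 0 ≤ c0 ∧
    ∀ X A G t σ : ℝ, 3 ≤ X → X ^ δ ≤ A → A ≤ X → ∀ α : O → ℂ, ClassG α X G →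
      (∀ a, α a ≠ 0 → A < (N a : ℝ) ∧ (N a : ℝ) ≤ 2 * A) → σ ≤ 3 / 2 →
      |t| ≤ Real.log X ^ Cw → ∀ j : O, Primary j → (N j : ℝ) ≤ Real.log X ^ Cw →
      ∀ k0 n : O, n ≠ 0 → (N n : ℝ) ≤ X → (¬ ∃ m : O, k0 = m ^ 3) →
      (N k0 : ℝ) ≤ Real.log X ^ Cw →
      ‖∑ r ∈ SPB (2 * A / N j), twc α A σ t (j * r) * toC (sym (k0 * n ^ 3) r)‖ ≤
        c0 * G * A / Real.log X ^ Aw := by
  -- the exponent used in `SW_sym`
  obtain ⟨C', hC'⟩ := exists_nat_ge (max (2 / δ) (Cw + 1))
  have hC'1 : 2 / δ ≤ C' := (le_max_left _ _).trans hC'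
  have hC'2 : Cw + 1 ≤ C' := by
    have := (le_max_right (2 / δ) ((Cw : ℝ) + 1)).trans hC'
    exact_mod_cast this
  obtain ⟨c1, hc1, hSW⟩ := H570.SW_sym Aw C'
  obtain ⟨X1, hX1, hlog⟩ := log_compare hδ Cw
  set X2 : ℝ := max X1 (Real.exp ((2 / δ) ^ C')) with hX2
  have hX2' : 0 ≤ Real.log X2 := Real.log_nonneg (by
      have := le_max_left X1 (Real.exp ((2 / δ) ^ C'))
      linarith)
  refine ⟨c1 * 16 * 2 * (2 / δ) ^ Aw + 128 * Real.log X2 ^ Aw, by positivity, ?_⟩
  intro X A G t σ hX hA hAX α hα hs hσ ht j hj hNj k0 n hn hNn hk0 hNk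
  have hX0 : 0 < X := by linarith
  have hG := hα.nonneg
  have hA0 : 0 < A := lt_of_lt_of_le (by positivity) hA
  have hL1 : 1 ≤ Real.log X := by
    rw [Real.le_log_iff_exp_le hX0]
    exact (Real.exp_one_lt_d9.le.trans (by norm_num)).trans hX
  have hj1 : (1 : ℝ) ≤ N j := hj.one_le_N'
  -- reduction to the dilated coefficient
  set β : O → ℂ := fun a => α a * (clp A σ (N a) : ℂ) with hβ
  have hβcls : ClassG β (2 * A) (4 * G * 4) :=
    (hα.mulMono (by norm_num) (clp_mono hA0 σ) (clp_nonneg A σ) (clp_le hσ)).restrictX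
      fun a ha => (hs a (left_ne_zero_of_mul ha)).2
  have hnorm : ‖∑ r ∈ SPB (2 * A / N j), twc α A σ t (j * r) * toC (sym (k0 * n ^ 3) r)‖ =
      ‖∑ r ∈ PB (2 * A / N j), H570.dil j β r * toC (sym (k0 * n ^ 3) r) * H570.nit (-t) r‖ := by
    have e1 : ∑ r ∈ SPB (2 * A / N j), twc α A σ t (j * r) * toC (sym (k0 * n ^ 3) r) =
        ((A : ℂ) ^ (-((t : ℂ) * Complex.I)) * (N j : ℂ) ^ ((t : ℂ) * Complex.I)) *
        ∑ r ∈ PB (2 * A / N j), H570.dil j β r * toC (sym (k0 * n ^ 3) r) * H570.nit (-t) r := by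
      rw [mul_sum]
      refine sum_subset_zero_on_sdiff SPB_subset_PB ?_ ?_
      · intro r hr
        rw [mem_sdiff, mem_SPB, mem_PB] at hr
        have h0 : H570.dil j β r = 0 := by
          by_contra hne
          rw [H570.dil, if_pos hr.1.1] at hne
          have h1 := (hβcls.supp _ hne).2.1
          exact hr.2 ⟨hr.1, h1.squarefree_of_dvd (dvd_mul_left r j)⟩
        rw [h0]; ring
      · intro r hr
        rw [mem_SPB] at hr
        rw [twc_mul hA0 hs hj hr.1.1]
        ring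
    rw [e1, norm_mul, norm_mul]
    have n1 : ‖(A : ℂ) ^ (-((t : ℂ) * Complex.I))‖ = 1 := by
      rw [Complex.norm_cpow_eq_rpow_re_of_pos hA0]; simp
    have n2 : ‖(N j : ℂ) ^ ((t : ℂ) * Complex.I)‖ = 1 := by
      rw [Complex.norm_natCast_cpow_of_pos (N_pos hj.ne_zero)]; simp
    rw [n1, n2, one_mul, one_mul]
  rw [hnorm]
  rcases le_or_gt X2 X with hXX | hXX
  · -- large `X`
    obtain ⟨hY3, hYl⟩ := hlog X A (N j) ((le_max_left _ _).trans hXX) hA hj1 hNj
    set Y : ℝ := 2 * A / N j with hY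
    have hLbig : (2 / δ) ^ C' ≤ Real.log X := by
      rw [Real.le_log_iff_exp_le hX0]
      exact (le_max_right _ _).trans hXX
    have hpow : Real.log X ^ Cw ≤ Real.log Y ^ C' := by
      calc Real.log X ^ Cw = Real.log X ^ Cw * 1 := by ring
        _ ≤ (δ / 2) ^ C' * (Real.log X ^ Cw * Real.log X) := by
            have e2 : (δ / 2) ^ C' * (2 / δ) ^ C' = 1 := by
              rw [← mul_pow]
              have : δ / 2 * (2 / δ) = 1 := by field_simp
              rw [this, one_pow]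
            have e3 : 1 ≤ (δ / 2) ^ C' * Real.log X := by
              rw [← e2]; gcongr
            calc Real.log X ^ Cw * 1 ≤ Real.log X ^ Cw * ((δ / 2) ^ C' * Real.log X) := by gcongr
              _ = _ := by ring
        _ = (δ / 2) ^ C' * Real.log X ^ (Cw + 1) := by rw [pow_succ]
        _ ≤ (δ / 2) ^ C' * Real.log X ^ C' := by
            gcongr
        _ = (δ / 2 * Real.log X) ^ C' := by rw [mul_pow]
        _ ≤ Real.log Y ^ C' := by gcongr
    have hY0 : 0 < Y := by linarith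
    have hNn' : (N n : ℝ) ≤ Y ^ C' := by
      refine hNn.trans ?_
      rw [← Real.log_le_log_iff hX0 (by positivity), Real.log_pow]
      calc Real.log X = (2 / δ) * (δ / 2 * Real.log X) := by field_simp
        _ ≤ C' * Real.log Y := by gcongr
    have hcls2 : H570.ClassGT (H570.dil j β) Y (4 * G * 4) (max 0 (N j)) :=
      (hβcls.toH570.toGT 0).dil hj
    have hT : max 0 ((N j : ℕ) : ℝ) ≤ Real.log Y ^ C' := by
      rw [max_eq_right (by positivity)]
      exact hNj.trans hpow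
    have := hSW k0 n hn hk0 Y (-t) hY3 (hNk.trans hpow) hNn' (by rw [abs_neg]; exact ht.trans hpow)
      (H570.dil j β) (4 * G * 4) (max 0 (N j)) hcls2 hT
    refine this.trans ?_
    have hLY : 0 < δ / 2 * Real.log X := by positivity
    have hYA : Y ≤ 2 * A := by
      rw [hY, div_le_iff₀ (by linarith)]
      nlinarith
    have hLY2 : (δ / 2 * Real.log X) ^ Aw ≤ Real.log Y ^ Aw := by gcongr
    calc c1 * (4 * G * 4) * Y / Real.log Y ^ Aw
        ≤ c1 * (4 * G * 4) * (2 * A) / (δ / 2 * Real.log X) ^ Aw := by gcongr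
      _ = (c1 * 16 * 2 * (2 / δ) ^ Aw) * G * A / Real.log X ^ Aw := by
          rw [mul_pow, div_pow, div_pow]
          field_simp
          ring
      _ ≤ _ := by
          have h1 : 0 ≤ 128 * Real.log X2 ^ Aw := by positivity
          gcongr
          linarith
  · -- small `X`
    have h1 : ‖∑ r ∈ PB (2 * A / N j), H570.dil j β r * toC (sym (k0 * n ^ 3) r) *
        H570.nit (-t) r‖ ≤ 128 * G * A := by
      refine (norm_sum_le _ _).trans ?_
      have hY0 : 0 ≤ 2 * A / N j := by positivity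
      calc ∑ r ∈ PB (2 * A / N j), ‖H570.dil j β r * toC (sym (k0 * n ^ 3) r) *
            H570.nit (-t) r‖ ≤ ∑ r ∈ PB (2 * A / N j), 4 * G * 4 := by
            refine sum_le_sum fun r hr => ?_
            rw [mem_PB] at hr
            rw [norm_mul, norm_mul, H570.norm_nit hr.1.ne_zero, mul_one]
            have h2 : ‖H570.dil j β r‖ ≤ 4 * G * 4 := by
              rw [H570.dil, if_pos hr.1]
              exact hβcls.bound _
            calc _ ≤ (4 * G * 4) * 1 := by
                  gcongr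
                  exact norm_sym_le _ _
              _ = _ := mul_one _
        _ = (PB (2 * A / N j)).card * (4 * G * 4) := by rw [sum_const, nsmul_eq_mul]
        _ ≤ (4 * (2 * A / N j)) * (4 * G * 4) := by
            gcongr
            exact card_PB_le hY0
        _ ≤ (4 * (2 * A / 1)) * (4 * G * 4) := by gcongr
        _ = _ := by ring
    have h2 : Real.log X ^ Aw ≤ Real.log X2 ^ Aw := by
      have : Real.log X ≤ Real.log X2 := Real.log_le_log hX0 hXX.le
      gcongr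
    have h3 : 0 ≤ c1 * 16 * 2 * (2 / δ) ^ Aw := by positivity
    rw [le_div_iff₀ (by positivity)]
    calc _ ≤ (128 * G * A) * Real.log X2 ^ Aw := by gcongr
      _ = (128 * Real.log X2 ^ Aw) * G * A := by ring
      _ ≤ _ := by
          gcongr
          linarith

end DN

end Vale.Agent.P006
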