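import Vale.Agent.P006.DN.Tail
import Vale.Agent.P006.DN.SWfam
import Vale.Agent.P006.DN.NCsum

/-!
P006, block DN (helper611): the non-cube functional `NCf` summed over the blocks of one class `G`
coefficient.
-/

namespace Vale.Agent.P006.DN

open scoped Classical
open Finset DISP

/-- the part of `α` in the block `⌊N a / 2 ^ l⌋ = s` -/
noncomputable def blk (α : O → ℂ) (l s : ℕ) (a : O) : ℂ := if N a / 2 ^ l = s then α a else 0

theorem blk_class {α : O → ℂ} {X G : ℝ} (h : ClassG α X G) (l s : ℕ) :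
    ClassG (blk α l s) X (4 * G) := by
  have h1 := h.interval ((s : ℝ) * 2 ^ l - 1 / 2) (((s : ℝ) + 1) * 2 ^ l - 1 / 2)
  have e : blk α l s = fun a => if (s : ℝ) * 2 ^ l - 1 / 2 < (N a : ℝ) ∧
      (N a : ℝ) ≤ ((s : ℝ) + 1) * 2 ^ l - 1 / 2 then α a else 0 := by
    funext a
    have hp : 0 < 2 ^ l := by positivity
    have hiff : N a / 2 ^ l = s ↔ (s : ℝ) * 2 ^ l - 1 / 2 < (N a : ℝ) ∧
        (N a : ℝ) ≤ ((s : ℝ) + 1) * 2 ^ l - 1 / 2 := by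
      rw [Nat.div_eq_iff hp]
      constructor
      · rintro ⟨h1, h2⟩
        have h1' : ((s * 2 ^ l : ℕ) : ℝ) ≤ N a := by exact_mod_cast h1
        have h2' : ((N a : ℕ) : ℝ) ≤ ((s * 2 ^ l + 2 ^ l - 1 : ℕ) : ℝ) := by exact_mod_cast h2
        rw [Nat.cast_sub (by omega)] at h2'
        push_cast at h1' h2'
        constructor <;> linarith
      · rintro ⟨h1, h2⟩
        constructor
        · have : ((s * 2 ^ l : ℕ) : ℝ) < ((N a + 1 : ℕ) : ℝ) := by push_cast; linarith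
          have := Nat.cast_lt.1 this
          omega
        · have : ((N a : ℕ) : ℝ) < ((s * 2 ^ l + 2 ^ l : ℕ) : ℝ) := by push_cast; linarith
          have := Nat.cast_lt.1 this
          omega
    rw [blk]
    by_cases hc : N a / 2 ^ l = s
    · rw [if_pos hc, if_pos (hiff.1 hc)]
    · rw [if_neg hc, if_neg fun h => hc (hiff.2 h)]
  rw [e]
  exact h1

theorem blk_ne_zero {α : O → ℂ} {l s : ℕ} {a : O} (h : blk α l s a ≠ 0) : α a ≠ 0 := by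
  intro h0
  apply h
  rw [blk, h0, ite_self]

theorem twc_blk (α : O → ℂ) (l s : ℕ) (A σ t : ℝ) (a : O) :
    twc (blk α l s) A σ t a = if N a / 2 ^ l = s then twc α A σ t a else 0 := by
  rw [twc, blk, twc]
  split_ifs <;> ring

theorem norm_twc_le {α : O → ℂ} {A G σ t : ℝ} (hA : 0 < A) (hG : 0 ≤ G) (hσ : σ ≤ 3 / 2)
    (hα : ∀ a, ‖α a‖ ≤ G) (hs : ∀ a, α a ≠ 0 → Primary a ∧ A < (N a : ℝ) ∧ (N a : ℝ) ≤ 2 * A)
    (a : O) : ‖twc α A σ t a‖ ≤ 4 * G := by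
  by_cases h0 : α a = 0
  · rw [twc, h0, zero_mul, norm_zero]; positivity
  obtain ⟨hp, h1, h2⟩ := hs a h0
  rw [norm_twc hA hp.ne_zero]
  have hx1 : 1 ≤ (N a : ℝ) / A := by rw [le_div_iff₀ hA]; linarith
  have hx2 : (N a : ℝ) / A ≤ 2 := by rw [div_le_iff₀ hA]; linarith
  have h3 : ((N a : ℝ) / A) ^ σ ≤ 4 := by
    calc ((N a : ℝ) / A) ^ σ ≤ ((N a : ℝ) / A) ^ (2 : ℝ) :=
          Real.rpow_le_rpow_of_exponent_le hx1 (by linarith)
      _ ≤ 2 ^ (2 : ℝ) := Real.rpow_le_rpow (by linarith) hx2 (by norm_num)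
      _ = 4 := by norm_num
  calc ‖α a‖ * ((N a : ℝ) / A) ^ σ ≤ G * 4 := by
        gcongr
        exact hα a
    _ = 4 * G := by ring

/-- scaled twisted blocks -/
noncomputable def gam (α : O → ℂ) (l : ℕ) (A G σ t : ℝ) (s : ℕ) (a : O) : ℂ :=
  ((((4 * G)⁻¹ : ℝ)) : ℂ) * twc (blk α l s) A σ t a

theorem gam_fam {α : O → ℂ} {A G σ t : ℝ} (hA : 0 < A) (hG : 1 ≤ G) (hσ : σ ≤ 3 / 2)
    (hα : ∀ a, ‖α a‖ ≤ G) (hs : ∀ a, α a ≠ 0 → Primary a ∧ A < (N a : ℝ) ∧ (N a : ℝ) ≤ 2 * A)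
    (l : ℕ) (S : Finset ℕ) (a : O) : ∑ s ∈ S, ‖gam α l A G σ t s a‖ ≤ 1 := by
  have h4 : 0 < (4 * G)⁻¹ := by positivity
  have e : ∀ s, ‖gam α l A G σ t s a‖ =
      if N a / 2 ^ l = s then (4 * G)⁻¹ * ‖twc α A σ t a‖ else 0 := by
    intro s
    rw [gam, norm_mul, Complex.norm_real, Real.norm_of_nonneg h4.le, twc_blk]
    split_ifs
    · rfl
    · rw [norm_zero, mul_zero]
  simp only [e]
  rw [sum_ite_eq]
  split_ifs
  · calc (4 * G)⁻¹ * ‖twc α A σ t a‖ ≤ (4 * G)⁻¹ * (4 * G) := by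
          gcongr
          exact norm_twc_le hA (by linarith) hσ hα hs a
      _ = 1 := inv_mul_cancel₀ (by positivity)
  · norm_num

theorem NCQ_gam (α : O → ℂ) (l : ℕ) {A G σ t : ℝ} (hG : 1 ≤ G) (s : ℕ) (Y H : ℝ) :
    NCQ (twc (blk α l s) A σ t) Y H = 16 * G ^ 2 * NCQ (gam α l A G σ t s) Y H := by
  have h := NCQ_smul ((((4 * G)⁻¹ : ℝ)) : ℂ) (twc (blk α l s) A σ t) Y H
  have e : (fun a => ((((4 * G)⁻¹ : ℝ)) : ℂ) * twc (blk α l s) A σ t a) = gam α l A G σ t s := rfl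
  rw [e] at h
  rw [h, Complex.norm_real, Real.norm_of_nonneg (by positivity)]
  field_simp
  ring

theorem gam_supp {α : O → ℂ} {l : ℕ} {A G σ t : ℝ}
    (hs : ∀ a, α a ≠ 0 → Primary a ∧ Squarefree a) (s : ℕ) (a : O)
    (h : gam α l A G σ t s a ≠ 0) : Primary a ∧ Squarefree a := by
  apply hs
  apply blk_ne_zero (l := l) (s := s)
  intro h0
  apply h
  rw [gam, twc, h0]; ring

/-- the tail bound for the blocks -/
theorem fam_tail {ε : ℝ} (hε : 0 < ε) : ∃ C : ℝ, 0 ≤ C ∧ ∀ (X A G σ t : ℝ) (α : O → ℂ), 1 ≤ A →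
    1 ≤ G → σ ≤ 3 / 2 → ClassG α X G → (∀ a, α a ≠ 0 → A < (N a : ℝ) ∧ (N a : ℝ) ≤ 2 * A) →
    ∀ (l : ℕ) (S : Finset ℕ) (H : ℝ), 1 ≤ H →
      ∑ s ∈ S, NCQ (twc (blk α l s) A σ t) (2 * A) H ≤ C * G ^ 2 * (2 * A * H) ^ ε *
        (2 * A * H + (2 * A) ^ 2 * H ^ (1 / 3 : ℝ) + (2 * A) ^ (5 / 3 : ℝ) * H ^ (2 / 3 : ℝ)) := by
  obtain ⟨C, hC, h⟩ := nc_tail hε
  refine ⟨16 * C, by positivity, ?_⟩
  intro X A G σ t α hA hG hσ hα hs l S H hH
  have h1 := h S (fun s => gam α l A G σ t s) (gam_fam (by linarith) hG hσ hα.bound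
    (fun a ha => ⟨(hα.supp a ha).1, hs a ha⟩) l S) (2 * A) H (by linarith) hH
  simp only [NCQ_gam α l hG]
  rw [← mul_sum]
  calc 16 * G ^ 2 * ∑ s ∈ S, NCQ (gam α l A G σ t s) (2 * A) H
      ≤ 16 * G ^ 2 * (C * (2 * A * H) ^ ε *
        (2 * A * H + (2 * A) ^ 2 * H ^ (1 / 3 : ℝ) + (2 * A) ^ (5 / 3 : ℝ) * H ^ (2 / 3 : ℝ))) := by
        gcongr
    _ = _ := by ring

/-- the bound without Siegel–Walfisz, all `t` -/
theorem fam_all {δ : ℝ} (hδ : 0 < δ) : ∃ C : ℝ, 0 ≤ C ∧ ∀ (X A G σ t : ℝ) (α : O → ℂ), 3 ≤ X →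
    1 ≤ A → 2 * A ≤ X →
    1 ≤ G → σ ≤ 3 / 2 → ClassG α X G → (∀ a, α a ≠ 0 → A < (N a : ℝ) ∧ (N a : ℝ) ≤ 2 * A) →
    ∀ (l : ℕ) (S : Finset ℕ) (H : ℝ), 1 ≤ H → H ≤ (2 * A) ^ (1 - δ) →
      ∑ s ∈ S, NCQ (twc (blk α l s) A σ t) (2 * A) H ≤
        C * G ^ 2 * Real.log X ^ 3 * (A ^ 2 * H ^ (1 / 3 : ℝ)) := by
  obtain ⟨C, η, hC, hη, h⟩ := NC.nc_int hδ
  refine ⟨16 * (C * 4 * (14)), by positivity, ?_⟩
  intro X A G σ t α hX hA hAX hG hσ hα hs l S H hH hH2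
  have hA0 : 0 < A := by linarith
  have hX0 : 0 < X := by linarith
  have hL1 : 1 ≤ Real.log X := by
    rw [Real.le_log_iff_exp_le hX0]
    exact (Real.exp_one_lt_d9.le.trans (by norm_num)).trans hX
  have hfam := gam_fam (σ := σ) (t := t) hA0 hG hσ hα.bound
    (fun a ha => ⟨(hα.supp a ha).1, hs a ha⟩) l S
  have hSW : NC.SWhyp S (fun s => gam α l A G σ t s) (2 * A) H 1 1 4 := by
    intro s hsS j hj u _ l' _ k1 k2 n _ _ _ _ _ _ _
    have hj0 : (0 : ℝ) < N j := by exact_mod_cast N_pos (NC.mem_PB.1 hj).2.ne_zero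
    have hj1 : (1 : ℝ) ≤ N j := (NC.mem_PB.1 hj).2.1.one_le_N'
    rw [NC.inner, NC.Fs]
    calc ‖∑ r ∈ NC.PB (2 * A / N j), gam α l A G σ t s (j * r) * NC.ch r (NC.rep u l' k1 k2 n)‖
        ≤ ∑ r ∈ NC.PB (2 * A / N j), 1 := by
          refine (norm_sum_le _ _).trans (sum_le_sum fun r _ => ?_)
          rw [norm_mul]
          have h1 : ‖gam α l A G σ t s (j * r)‖ ≤ 1 :=
            (single_le_sum (f := fun s => ‖gam α l A G σ t s (j * r)‖)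
              (fun _ _ => norm_nonneg _) hsS).trans (hfam _)
          have h2 : ‖NC.ch r (NC.rep u l' k1 k2 n)‖ ≤ 1 := norm_sym_le _ _
          calc _ ≤ (1 : ℝ) * 1 := mul_le_mul h1 h2 (norm_nonneg _) (by norm_num)
            _ = 1 := one_mul _
      _ = (NC.PB (2 * A / N j)).card := by simp
      _ ≤ 4 * (2 * A / N j) := by
          rw [NC.PB_eq_SPB]
          refine le_trans ?_ (card_PB_le (by positivity))
          exact_mod_cast card_le_card SPB_subset_PB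
      _ ≤ 4 * (2 * A) := by
          have : 2 * A / N j ≤ 2 * A := div_le_self (by linarith) hj1
          linarith
  have h1 := h ℕ S (fun s => gam α l A G σ t s) ⟨hfam⟩ (2 * A) H 1 1 4 (by linarith) hH hH2 le_rfl
    le_rfl (by norm_num) hSW
  simp only [NCQ_gam α l hG]
  rw [← mul_sum]
  simp only [← NCQ_eq_NC] at h1
  have hbr : (1 : ℝ) ^ 3 * (1 ^ 2 * 4 + 1 ^ (-(1 / 2 : ℝ))) +
      (1 + Real.log (2 * A)) ^ 3 * 1 ^ (-(1 / 3 : ℝ)) + (2 * A) ^ (-η) ≤ 14 * Real.log X ^ 3 := by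
    have e1 : (2 * A) ^ (-η) ≤ 1 :=
      Real.rpow_le_one_of_one_le_of_nonpos (by linarith) (by linarith)
    have e2 : Real.log (2 * A) ≤ Real.log X := Real.log_le_log (by linarith) hAX
    have e3 : 0 ≤ Real.log (2 * A) := Real.log_nonneg (by linarith)
    have e4 : (1 + Real.log (2 * A)) ^ 3 ≤ (2 * Real.log X) ^ 3 := by
      apply pow_le_pow_left₀ (by linarith)
      linarith
    have e5 : 1 ≤ Real.log X ^ 3 := one_le_pow₀ hL1
    rw [Real.one_rpow, Real.one_rpow]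
    nlinarith
  have hP : 0 ≤ A ^ 2 * H ^ (1 / 3 : ℝ) := by positivity
  calc 16 * G ^ 2 * ∑ s ∈ S, NCQ (gam α l A G σ t s) (2 * A) H
      ≤ 16 * G ^ 2 * (C * (2 * A) ^ 2 * H ^ (1 / 3 : ℝ) * (14 * Real.log X ^ 3)) := by
        gcongr
        exact h1.trans (by gcongr)
    _ = _ := by ring

end Vale.Agent.P006.DN
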