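import Vale.Agent.P006.DISP.Stmt
import Vale.Agent.P006.H357.Base

/-!
P006, block DN (helper611): from the non-cube functional `NCf` to the quadratic forms `NCQ`
(integral over `t`).
-/

namespace Vale.Agent.P006.DN

open scoped Classical
open Finset DISP MeasureTheory

/-- the non-cube quadratic form -/
noncomputable def NCQ (α : O → ℂ) (A H : ℝ) : ℝ :=
  ∑ j ∈ SPB A, ∑ κ ∈ (HB.Hn H).filter NonCube, (N (EuclideanDomain.gcd j κ) : ℝ) *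
    ‖∑ r ∈ SPB (A / N j), α (j * r) * toC (sym κ r)‖ ^ 2

/-- twisted coefficients -/
noncomputable def twc (α : O → ℂ) (A σ t : ℝ) (a : O) : ℂ :=
  α a * ((((N a : ℝ) / A : ℝ) : ℂ) ^ ((σ : ℂ) + t * Complex.I))

theorem csum_eq (α : O → ℂ) (A σ t : ℝ) (j κ : O) :
    csum α A σ t j κ = ∑ r ∈ SPB (2 * A / N j), twc α A σ t (j * r) * toC (sym κ r) := rfl

theorem NCQ_nonneg (α : O → ℂ) (A H : ℝ) : 0 ≤ NCQ α A H :=
  sum_nonneg fun _ _ => sum_nonneg fun _ _ => by positivity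

theorem continuous_csum {α : O → ℂ} {A σ : ℝ} (hσ : σ ≠ 0) (j κ : O) :
    Continuous fun t : ℝ => csum α A σ t j κ := by
  unfold csum
  refine continuous_finsetSum _ fun r _ => ?_
  refine (continuous_const.mul ?_).mul continuous_const
  refine Continuous.const_cpow (by fun_prop) (Or.inr fun t h => hσ ?_)
  have := congrArg Complex.re h
  simpa using this

theorem norm_twc {α : O → ℂ} {A σ t : ℝ} {a : O} (hA : 0 < A) (ha : a ≠ 0) :
    ‖twc α A σ t a‖ = ‖α a‖ * ((N a : ℝ) / A) ^ σ := by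
  have h : (0 : ℝ) < N a / A := div_pos (by exact_mod_cast N_pos ha) hA
  rw [twc, norm_mul, Complex.norm_cpow_eq_rpow_re_of_pos h]
  simp

theorem norm_csum_le {α : O → ℂ} {A σ : ℝ} (hA : 0 < A) {j κ : O} (hj : j ≠ 0) (t : ℝ) :
    ‖csum α A σ t j κ‖ ≤ ∑ r ∈ SPB (2 * A / N j), ‖α (j * r)‖ * ((N (j * r) : ℝ) / A) ^ σ := by
  rw [csum_eq]
  refine (norm_sum_le _ _).trans (sum_le_sum fun r hr => ?_)
  have hr0 : r ≠ 0 := (mem_SPB.1 hr).1.1.ne_zero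
  rw [norm_mul, norm_twc hA (mul_ne_zero hj hr0)]
  calc _ ≤ (‖α (j * r)‖ * ((N (j * r) : ℝ) / A) ^ σ) * 1 := by
        gcongr
        exact norm_sym_le _ _
    _ = _ := mul_one _

theorem integrable_csum {α : O → ℂ} {A σ : ℝ} (hA : 0 < A) (hσ : σ ≠ 0) {j : O} (hj : j ≠ 0)
    (κ : O) : Integrable fun t : ℝ => (1 + t ^ 2)⁻¹ * ‖csum α A σ t j κ‖ ^ 2 := by
  set M := ∑ r ∈ SPB (2 * A / N j), ‖α (j * r)‖ * ((N (j * r) : ℝ) / A) ^ σ with hM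
  have hc := continuous_csum (α := α) (A := A) hσ j κ
  have h1 : Integrable fun t : ℝ => M ^ 2 * (1 + t ^ 2)⁻¹ := integrable_inv_one_add_sq.const_mul _
  refine h1.mono' ?_ (Filter.Eventually.of_forall fun t => ?_)
  · refine Continuous.aestronglyMeasurable ?_
    refine Continuous.mul (Continuous.inv₀ (by fun_prop) fun t => by positivity) ?_
    exact hc.norm.pow 2
  · have h2 := norm_csum_le (α := α) (σ := σ) hA (κ := κ) hj t
    have h3 : (0 : ℝ) ≤ (1 + t ^ 2)⁻¹ := by positivity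
    rw [norm_mul, Real.norm_of_nonneg h3, norm_pow, norm_norm, mul_comm]
    gcongr

theorem csumI_nonneg (α : O → ℂ) (A σ : ℝ) (j κ : O) : 0 ≤ csumI α A σ j κ :=
  integral_nonneg fun t => by positivity

/-- `∫ (1+t²)^{-3/4}` -/
noncomputable def c34 : ℝ := ∫ t : ℝ, (1 + ‖t‖ ^ 2) ^ (-(3 / 2 : ℝ) / 2)

theorem integrable_c34 : Integrable fun t : ℝ => (1 + ‖t‖ ^ 2) ^ (-(3 / 2 : ℝ) / 2) :=
  integrable_rpow_neg_one_add_norm_sq (by rw [Module.finrank_self]; norm_num)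

theorem c34_nonneg : 0 ≤ c34 := integral_nonneg fun t => by positivity

/-- splitting the integral at `|t| = T` -/
theorem int_split {f : ℝ → ℝ} {P0 P1 T : ℝ} (hT : 1 ≤ T) (h0 : 0 ≤ P0) (h1 : 0 ≤ P1)
    (hf0 : ∀ t, 0 ≤ f t) (hfint : Integrable fun t : ℝ => (1 + t ^ 2)⁻¹ * f t)
    (hf : ∀ t, f t ≤ P0) (hf1 : ∀ t, |t| ≤ T → f t ≤ P1) :
    ∫ t : ℝ, (1 + t ^ 2)⁻¹ * f t ≤ Real.pi * P1 + c34 * (P0 * T ^ (-(1 / 2) : ℝ)) := by
  have e : Real.pi * P1 + c34 * (P0 * T ^ (-(1 / 2) : ℝ)) =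
      ∫ t : ℝ, (P1 * (1 + t ^ 2)⁻¹ +
        (P0 * T ^ (-(1 / 2) : ℝ)) * (1 + ‖t‖ ^ 2) ^ (-(3 / 2 : ℝ) / 2)) := by
    rw [integral_add (integrable_inv_one_add_sq.const_mul _) (integrable_c34.const_mul _),
      integral_const_mul, integral_const_mul, integral_univ_inv_one_add_sq, c34]
    ring
  rw [e]
  refine integral_mono hfint
    ((integrable_inv_one_add_sq.const_mul _).add (integrable_c34.const_mul _)) fun t => ?_
  simp only
  have hp : (0 : ℝ) < 1 + t ^ 2 := by positivity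
  rw [Real.norm_eq_abs, sq_abs]
  rcases le_or_gt |t| T with ht | ht
  · have h2 := hf1 t ht
    have h3 : 0 ≤ (P0 * T ^ (-(1 / 2) : ℝ)) * (1 + t ^ 2) ^ (-(3 / 2 : ℝ) / 2) := by positivity
    have h4 : (1 + t ^ 2)⁻¹ * f t ≤ (1 + t ^ 2)⁻¹ * P1 := by gcongr
    linarith [mul_comm (1 + t ^ 2)⁻¹ P1]
  · have h2 := hf t
    have h3 : (1 + t ^ 2)⁻¹ = (1 + t ^ 2) ^ (-(1 / 4) : ℝ) * (1 + t ^ 2) ^ (-(3 / 2 : ℝ) / 2) := by
      rw [← Real.rpow_add hp, ← Real.rpow_neg_one]; norm_num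
    have h4 : (1 + t ^ 2) ^ (-(1 / 4) : ℝ) ≤ T ^ (-(1 / 2) : ℝ) := by
      have h5 : T ^ 2 ≤ 1 + t ^ 2 := by
        have : T ^ 2 ≤ |t| ^ 2 := by gcongr
        rw [sq_abs] at this
        linarith
      calc (1 + t ^ 2) ^ (-(1 / 4) : ℝ) ≤ (T ^ 2) ^ (-(1 / 4) : ℝ) :=
            Real.rpow_le_rpow_of_nonpos (by positivity) h5 (by norm_num)
        _ = T ^ (-(1 / 2) : ℝ) := by
            rw [← Real.rpow_natCast, ← Real.rpow_mul (by linarith)]; norm_num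
    have h6 : 0 ≤ P1 * (1 + t ^ 2)⁻¹ := by positivity
    have h7 : (1 + t ^ 2)⁻¹ * f t ≤
        (P0 * T ^ (-(1 / 2) : ℝ)) * (1 + t ^ 2) ^ (-(3 / 2 : ℝ) / 2) := by
      rw [h3]
      calc (1 + t ^ 2) ^ (-(1 / 4) : ℝ) * (1 + t ^ 2) ^ (-(3 / 2 : ℝ) / 2) * f t
          ≤ T ^ (-(1 / 2) : ℝ) * (1 + t ^ 2) ^ (-(3 / 2 : ℝ) / 2) * P0 := by
            have := hf0 t
            gcongr
        _ = _ := by ring
    linarith

/-- the block sum over `N κ ≤ H` of the integrated sums -/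
noncomputable def TS (S : Finset ℕ) (α : ℕ → O → ℂ) (A σ H : ℝ) : ℝ :=
  ∑ s ∈ S, ∑ j ∈ SPB (2 * A), ∑ κ ∈ (HB.Hn H).filter NonCube,
    (N (EuclideanDomain.gcd j κ) : ℝ) * csumI (α s) A σ j κ

theorem TS_nonneg (S : Finset ℕ) (α : ℕ → O → ℂ) (A σ H : ℝ) : 0 ≤ TS S α A σ H :=
  sum_nonneg fun _ _ => sum_nonneg fun _ _ => sum_nonneg fun _ _ =>
    mul_nonneg (Nat.cast_nonneg _) (csumI_nonneg _ _ _ _ _)

theorem TS_eq {S : Finset ℕ} {α : ℕ → O → ℂ} {A σ H : ℝ} (hA : 0 < A) (hσ : σ ≠ 0) :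
    TS S α A σ H = ∫ t : ℝ, (1 + t ^ 2)⁻¹ * ∑ s ∈ S, NCQ (twc (α s) A σ t) (2 * A) H := by
  have hj0 : ∀ j ∈ SPB (2 * A), j ≠ 0 := fun j hj => (mem_SPB.1 hj).1.1.ne_zero
  have e1 : ∀ t : ℝ, (1 + t ^ 2)⁻¹ * ∑ s ∈ S, NCQ (twc (α s) A σ t) (2 * A) H =
      ∑ s ∈ S, ∑ j ∈ SPB (2 * A), ∑ κ ∈ (HB.Hn H).filter NonCube,
        (N (EuclideanDomain.gcd j κ) : ℝ) * ((1 + t ^ 2)⁻¹ * ‖csum (α s) A σ t j κ‖ ^ 2) := by
    intro t
    simp only [NCQ, ← csum_eq]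
    rw [mul_sum]
    refine sum_congr rfl fun s _ => ?_
    rw [mul_sum]
    refine sum_congr rfl fun j _ => ?_
    rw [mul_sum]
    exact sum_congr rfl fun κ _ => by ring
  simp only [e1]
  rw [integral_finsetSum]
  · refine sum_congr rfl fun s _ => ?_
    rw [integral_finsetSum]
    · refine sum_congr rfl fun j hj => ?_
      rw [integral_finsetSum]
      · refine sum_congr rfl fun κ _ => ?_
        rw [integral_const_mul]; rfl
      · exact fun κ _ => (integrable_csum hA hσ (hj0 j hj) κ).const_mul _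
    · exact fun j hj => integrable_finsetSum _ fun κ _ =>
        (integrable_csum hA hσ (hj0 j hj) κ).const_mul _
  · exact fun s _ => integrable_finsetSum _ fun j hj => integrable_finsetSum _ fun κ _ =>
        (integrable_csum hA hσ (hj0 j hj) κ).const_mul _

theorem integrable_NCQ {S : Finset ℕ} {α : ℕ → O → ℂ} {A σ H : ℝ} (hA : 0 < A) (hσ : σ ≠ 0) :
    Integrable fun t : ℝ => (1 + t ^ 2)⁻¹ * ∑ s ∈ S, NCQ (twc (α s) A σ t) (2 * A) H := by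
  have hj0 : ∀ j ∈ SPB (2 * A), j ≠ 0 := fun j hj => (mem_SPB.1 hj).1.1.ne_zero
  have e1 : (fun t : ℝ => (1 + t ^ 2)⁻¹ * ∑ s ∈ S, NCQ (twc (α s) A σ t) (2 * A) H) = fun t =>
      ∑ s ∈ S, ∑ j ∈ SPB (2 * A), ∑ κ ∈ (HB.Hn H).filter NonCube,
        (N (EuclideanDomain.gcd j κ) : ℝ) * ((1 + t ^ 2)⁻¹ * ‖csum (α s) A σ t j κ‖ ^ 2) := by
    funext t
    simp only [NCQ, ← csum_eq]
    rw [mul_sum]
    refine sum_congr rfl fun s _ => ?_
    rw [mul_sum]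
    refine sum_congr rfl fun j _ => ?_
    rw [mul_sum]
    exact sum_congr rfl fun κ _ => by ring
  rw [e1]
  exact integrable_finsetSum _ fun s _ => integrable_finsetSum _ fun j hj =>
    integrable_finsetSum _ fun κ _ => (integrable_csum hA hσ (hj0 j hj) κ).const_mul _

theorem TS_le {S : Finset ℕ} {α : ℕ → O → ℂ} {A σ H P0 P1 T : ℝ} (hA : 0 < A) (hσ : σ ≠ 0)
    (hT : 1 ≤ T) (h0 : 0 ≤ P0) (h1 : 0 ≤ P1)
    (hf : ∀ t, ∑ s ∈ S, NCQ (twc (α s) A σ t) (2 * A) H ≤ P0)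
    (hf1 : ∀ t, |t| ≤ T → ∑ s ∈ S, NCQ (twc (α s) A σ t) (2 * A) H ≤ P1) :
    TS S α A σ H ≤ Real.pi * P1 + c34 * (P0 * T ^ (-(1 / 2) : ℝ)) := by
  rw [TS_eq hA hσ]
  exact int_split hT h0 h1 (fun t => sum_nonneg fun s _ => NCQ_nonneg _ _ _)
    (integrable_NCQ hA hσ) hf hf1

end Vale.Agent.P006.DN
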