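import Vale.Agent.P006.DN.Blocks

/-!
P006, block DN (helper611): the interior Type II theorem from DN and the cubic large sieve.
-/

namespace Vale.Agent.P006.DN

open Finset H611

/-- the basic parameters of a nonempty block -/
structure Par (X d κ δ : ℝ) (i j : ℕ) : Prop where
  hX : 3 ≤ X
  hd : 0 < d
  hκ : 0 < κ
  hδ : 0 < δ
  hδκ : δ ≤ κ
  hδ3 : δ ≤ 1 / 3
  hij : (2 : ℝ) ^ (i + j) ≤ X
  hi1 : X ^ (1 / 3 + d) < (2 : ℝ) ^ (i + 1)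
  hi2 : (2 : ℝ) ^ i ≤ X ^ (1 / 2 - κ)

/-- small `X` -/
theorem case_small {d : ℝ} (hd : 0 < d) (A : ℕ) : ∃ C : ℝ, 0 ≤ C ∧
    ∀ X G : ℝ, 3 ≤ X → 1 ≤ G → X ^ d < 4 → ∀ (α : O → ℂ) (i j l : ℕ), (∀ a, ‖α a‖ ≤ G) →
      (2 : ℝ) ^ (i + j) ≤ X →
      2 ^ j * FS (fun a b => wf (a * b)) α i j l * Real.log X ^ A ≤
        C * G ^ 2 * X ^ (5 / 3 : ℝ) := by
  refine ⟨8 * 64 * 4 * ((A + 1) / (1 / 3)) ^ A * ((4 : ℝ) ^ (1 / d)) ^ (2 / 3 : ℝ),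
    by positivity, ?_⟩
  intro X G hX hG hXd α i j l hα hij
  have hX0 : 0 < X := by linarith
  have hX1 : 1 ≤ X := by linarith
  have h1 := FS_le_trivial (D := fun a b => wf (a * b)) (i := i) (j := j) (l := l) (M := 2)
    (by linarith : 0 ≤ G) (by norm_num) (fun a _ b _ => norm_wf_le_two _) hα
  have h2 := log_pow_le (c := 1 / 3) (by norm_num) A hX1
  have hL : 0 ≤ Real.log X := Real.log_nonneg hX1
  have hXX : X ≤ (4 : ℝ) ^ (1 / d) := by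
    have : X = (X ^ d) ^ (1 / d) := by
      rw [← Real.rpow_mul hX0.le, mul_one_div_cancel hd.ne', Real.rpow_one]
    rw [this]
    exact Real.rpow_le_rpow (by positivity) hXd.le (by positivity)
  have h3 : X ^ (2 / 3 : ℝ) ≤ ((4 : ℝ) ^ (1 / d)) ^ (2 / 3 : ℝ) :=
    Real.rpow_le_rpow hX0.le hXX (by norm_num)
  calc 2 ^ j * FS (fun a b => wf (a * b)) α i j l * Real.log X ^ A
      ≤ 2 ^ j * (8 * 2 ^ j * (8 * 2 ^ i * (G * 2)) ^ 2) * (((A + 1) / (1 / 3)) ^ A *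
        X ^ (1 / 3 : ℝ)) := by gcongr
    _ = 8 * 64 * 4 * ((A + 1) / (1 / 3)) ^ A * G ^ 2 * (((2 : ℝ) ^ (i + j)) ^ 2 *
        X ^ (1 / 3 : ℝ)) := by rw [pow_add]; ring
    _ ≤ 8 * 64 * 4 * ((A + 1) / (1 / 3)) ^ A * G ^ 2 * (X ^ 2 * X ^ (1 / 3 : ℝ)) := by gcongr
    _ = 8 * 64 * 4 * ((A + 1) / (1 / 3)) ^ A * G ^ 2 * (X ^ (2 / 3 : ℝ) * X ^ (5 / 3 : ℝ)) := by
        congr 1
        rw [← Real.rpow_natCast X 2, ← Real.rpow_add hX0, ← Real.rpow_add hX0]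
        norm_num
    _ ≤ 8 * 64 * 4 * ((A + 1) / (1 / 3)) ^ A * G ^ 2 *
        (((4 : ℝ) ^ (1 / d)) ^ (2 / 3 : ℝ) * X ^ (5 / 3 : ℝ)) := by gcongr
    _ = _ := by ring

/-- the large sieve case: `2^(i+j) ≤ 4 X^{1-κ}` -/
theorem case_HB (hHB : HBsq) {κ : ℝ} (hκ : 0 < κ) (A : ℕ) : ∃ C : ℝ, 0 ≤ C ∧
    ∀ X G : ℝ, 3 ≤ X → 1 ≤ G → ∀ (α : O → ℂ) (i j l : ℕ), (∀ a, ‖α a‖ ≤ G) →
      (2 : ℝ) ^ (i + j) ≤ 4 * X ^ (1 - κ) → (2 : ℝ) ^ i ≤ 4 * X ^ (1 / 2 : ℝ) →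
      (2 : ℝ) ^ j ≤ 4 * X ^ (1 / 2 : ℝ) → (2 : ℝ) ^ (i + j) ≤ X →
      2 ^ j * FS (fun a b => wf (a * b)) α i j l * Real.log X ^ A ≤
        C * G ^ 2 * X ^ (5 / 3 : ℝ) := by
  obtain ⟨C₃, hC₃, hHB⟩ := hHB (κ / 2) (by positivity)
  set Lc := ((A + 1) / (κ / 2)) ^ A with hLc
  have hLc0 : 0 ≤ Lc := by positivity
  refine ⟨2 * (C₃ * 4 ^ (κ / 2 : ℝ) * 22 * 8 * 4) * Lc +
    2 * (512 * (4 : ℝ) ^ (5 / 3 : ℝ)) * Lc, by positivity, ?_⟩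
  intro X G hX hG α i j l hα hij hi hj hijX
  have hX0 : 0 < X := by linarith
  have hX1 : 1 ≤ X := by linarith
  have hL : 0 ≤ Real.log X := Real.log_nonneg hX1
  have hlog : Real.log X ^ A ≤ Lc * X ^ (κ / 2) := log_pow_le (by positivity) A hX1
  have hG0 : 0 ≤ G := by linarith
  have hP0 : (0 : ℝ) < 2 ^ (i + j) := by positivity
  -- Gauss sum part
  set Bd := C₃ * ((2 : ℝ) ^ (i + 1) * 2 ^ (j + 1)) ^ (κ / 2) *
    ((2 : ℝ) ^ (i + 1) + 2 ^ (j + 1) + ((2 : ℝ) ^ (i + 1) * 2 ^ (j + 1)) ^ (2 / 3 : ℝ)) with hBd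
  have h1 : FS Dg α i j l ≤ Bd * ∑ a ∈ DB i, ‖α a‖ ^ 2 :=
    FS_Dg_le (by positivity) (hHB (2 ^ (i + 1)) (2 ^ (j + 1)) (one_le_pow₀ (by norm_num))
      (one_le_pow₀ (by norm_num)))
  have h1' : FS Dg α i j l ≤ Bd * (8 * 2 ^ i * G ^ 2) :=
    h1.trans (mul_le_mul_of_nonneg_left (sum_DB_sq_le hα i) (by positivity))
  have hprod : (2 : ℝ) ^ (i + 1) * 2 ^ (j + 1) = 4 * 2 ^ (i + j) := by
    rw [pow_succ, pow_succ, pow_add]; ring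
  have hBd1 : Bd ≤ C₃ * (4 ^ (κ / 2 : ℝ) * X ^ (κ / 2)) * (22 * X ^ (2 / 3 : ℝ)) := by
    rw [hBd, hprod]
    have e1 : (4 * (2 : ℝ) ^ (i + j)) ^ (κ / 2) ≤ 4 ^ (κ / 2 : ℝ) * X ^ (κ / 2) := by
      rw [Real.mul_rpow (by norm_num) hP0.le]
      gcongr
    have e2 : (4 * (2 : ℝ) ^ (i + j)) ^ (2 / 3 : ℝ) ≤ 4 * X ^ (2 / 3 : ℝ) := by
      rw [Real.mul_rpow (by norm_num) hP0.le]
      gcongr
      calc (4 : ℝ) ^ (2 / 3 : ℝ) ≤ 4 ^ (1 : ℝ) :=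
            Real.rpow_le_rpow_of_exponent_le (by norm_num) (by norm_num)
        _ = 4 := Real.rpow_one 4
    have e3 : X ^ (1 / 2 : ℝ) ≤ X ^ (2 / 3 : ℝ) :=
      Real.rpow_le_rpow_of_exponent_le hX1 (by norm_num)
    have e4 : (2 : ℝ) ^ (i + 1) + 2 ^ (j + 1) + (4 * (2 : ℝ) ^ (i + j)) ^ (2 / 3 : ℝ) ≤
        22 * X ^ (2 / 3 : ℝ) := by
      have e5 : (0 : ℝ) ≤ X ^ (2 / 3 : ℝ) := by positivity
      rw [pow_succ, pow_succ]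
      linarith
    gcongr
  have hFS1 : 2 ^ j * FS Dg α i j l * Real.log X ^ A ≤
      (C₃ * 4 ^ (κ / 2 : ℝ) * 22 * 8 * 4) * Lc * G ^ 2 * X ^ (5 / 3 : ℝ) := by
    calc 2 ^ j * FS Dg α i j l * Real.log X ^ A
        ≤ 2 ^ j * ((C₃ * (4 ^ (κ / 2 : ℝ) * X ^ (κ / 2)) * (22 * X ^ (2 / 3 : ℝ))) *
            (8 * 2 ^ i * G ^ 2)) * (Lc * X ^ (κ / 2)) := by
          have : 0 ≤ FS Dg α i j l := FS_nonneg _ _ _ _ _
          gcongr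
          exact h1'.trans (by gcongr)
      _ = (C₃ * 4 ^ (κ / 2 : ℝ) * 22 * 8) * Lc * G ^ 2 * (X ^ (κ / 2) * X ^ (κ / 2) *
            X ^ (2 / 3 : ℝ)) * 2 ^ (i + j) := by rw [pow_add]; ring
      _ ≤ (C₃ * 4 ^ (κ / 2 : ℝ) * 22 * 8) * Lc * G ^ 2 * (X ^ (κ / 2) * X ^ (κ / 2) *
            X ^ (2 / 3 : ℝ)) * (4 * X ^ (1 - κ)) := by gcongr
      _ = (C₃ * 4 ^ (κ / 2 : ℝ) * 22 * 8 * 4) * Lc * G ^ 2 * (X ^ (κ / 2) * X ^ (κ / 2) *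
            X ^ (2 / 3 : ℝ) * X ^ (1 - κ)) := by ring
      _ = _ := by
          rw [← Real.rpow_add hX0, ← Real.rpow_add hX0, ← Real.rpow_add hX0]
          congr 2
          ring
  -- model part
  have h2 := FS_le_trivial (D := Dm) (i := i) (j := j) (l := l)
    (M := ((2 : ℝ) ^ i) ^ (-(1 / 6) : ℝ) * ((2 : ℝ) ^ j) ^ (-(1 / 6) : ℝ)) hG0 (by positivity)
    (fun a ha b hb => norm_Dm_le ha hb) hα
  have hFS2 : 2 ^ j * FS Dm α i j l * Real.log X ^ A ≤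
      (512 * (4 : ℝ) ^ (5 / 3 : ℝ)) * Lc * G ^ 2 * X ^ (5 / 3 : ℝ) := by
    have hP : ((2 : ℝ) ^ i) ^ (-(1 / 6) : ℝ) * ((2 : ℝ) ^ j) ^ (-(1 / 6) : ℝ) =
        ((2 : ℝ) ^ (i + j)) ^ (-(1 / 6) : ℝ) := by
      rw [pow_add, Real.mul_rpow (by positivity) (by positivity)]
    have hP2 : ((2 : ℝ) ^ (i + j)) ^ 2 * (((2 : ℝ) ^ (i + j)) ^ (-(1 / 6) : ℝ)) ^ 2 =
        ((2 : ℝ) ^ (i + j)) ^ (5 / 3 : ℝ) := by
      rw [← Real.rpow_natCast ((2 : ℝ) ^ (i + j)) 2,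
        ← Real.rpow_natCast (((2 : ℝ) ^ (i + j)) ^ (-(1 / 6) : ℝ)) 2,
        ← Real.rpow_mul hP0.le, ← Real.rpow_add hP0]
      norm_num
    have hP3 : ((2 : ℝ) ^ (i + j)) ^ (5 / 3 : ℝ) ≤ (4 * X ^ (1 - κ)) ^ (5 / 3 : ℝ) := by
      gcongr
    have hP4 : (4 * X ^ (1 - κ)) ^ (5 / 3 : ℝ) * X ^ (κ / 2) ≤
        (4 : ℝ) ^ (5 / 3 : ℝ) * X ^ (5 / 3 : ℝ) := by
      rw [Real.mul_rpow (by norm_num) (by positivity), ← Real.rpow_mul hX0.le, mul_assoc,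
        ← Real.rpow_add hX0]
      refine mul_le_mul_of_nonneg_left (Real.rpow_le_rpow_of_exponent_le hX1 ?_) (by positivity)
      nlinarith
    calc 2 ^ j * FS Dm α i j l * Real.log X ^ A
        ≤ 2 ^ j * (8 * 2 ^ j * (8 * 2 ^ i * (G * (((2 : ℝ) ^ i) ^ (-(1 / 6) : ℝ) *
            ((2 : ℝ) ^ j) ^ (-(1 / 6) : ℝ)))) ^ 2) * (Lc * X ^ (κ / 2)) := by gcongr
      _ = 512 * Lc * G ^ 2 * (((2 : ℝ) ^ (i + j)) ^ 2 *
            (((2 : ℝ) ^ (i + j)) ^ (-(1 / 6) : ℝ)) ^ 2) * X ^ (κ / 2) := by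
          rw [hP, pow_add]; ring
      _ = 512 * Lc * G ^ 2 * (((2 : ℝ) ^ (i + j)) ^ (5 / 3 : ℝ) * X ^ (κ / 2)) := by
          rw [hP2]; ring
      _ ≤ 512 * Lc * G ^ 2 * ((4 * X ^ (1 - κ)) ^ (5 / 3 : ℝ) * X ^ (κ / 2)) := by gcongr
      _ ≤ 512 * Lc * G ^ 2 * ((4 : ℝ) ^ (5 / 3 : ℝ) * X ^ (5 / 3 : ℝ)) := by gcongr
      _ = _ := by ring
  have h3 : FS (fun a b => wf (a * b)) α i j l ≤ 2 * FS Dg α i j l + 2 * FS Dm α i j l :=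
    FS_sub_le fun a ha b hb => wf_mul_eq (inP_of_mem_DB ha) (inP_of_mem_DB hb)
  have hLA : 0 ≤ Real.log X ^ A := by positivity
  calc 2 ^ j * FS (fun a b => wf (a * b)) α i j l * Real.log X ^ A
      ≤ 2 ^ j * (2 * FS Dg α i j l + 2 * FS Dm α i j l) * Real.log X ^ A := by gcongr
    _ = 2 * (2 ^ j * FS Dg α i j l * Real.log X ^ A) +
        2 * (2 ^ j * FS Dm α i j l * Real.log X ^ A) := by ring
    _ ≤ 2 * ((C₃ * 4 ^ (κ / 2 : ℝ) * 22 * 8 * 4) * Lc * G ^ 2 * X ^ (5 / 3 : ℝ)) +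
        2 * ((512 * (4 : ℝ) ^ (5 / 3 : ℝ)) * Lc * G ^ 2 * X ^ (5 / 3 : ℝ)) := by gcongr
    _ = _ := by ring

/-! arithmetic of the three terms -/

theorem hX53 {X d : ℝ} (hX0 : 0 < X) :
    X ^ (2 / 3 - d) * X * (X ^ (d / 2) * X ^ (d / 2)) = X ^ (5 / 3 : ℝ) := by
  rw [← Real.rpow_add hX0, ← Real.rpow_add_one hX0.ne', ← Real.rpow_add hX0]
  congr 1; ring

theorem arith_one {X d C₀ Lc L G a₀ b₀ S : ℝ} (hX0 : 0 < X) (hX1 : 1 ≤ X) (hd : 0 < d)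
    (hC₀ : 0 ≤ C₀) (hLc0 : 0 ≤ Lc) (hlog : L ≤ Lc * X ^ (d / 2)) (hb0 : 0 ≤ b₀)
    (hab : a₀ * b₀ ≤ X) (hB1 : b₀ ≤ 4 * X ^ (2 / 3 - d)) (hS0 : 0 ≤ S)
    (hsq : S ≤ 8 * a₀ * G ^ 2) :
    (2 * b₀) * (C₀ * 1 * 1 * b₀ * S) * L ≤ 1024 * C₀ * Lc * G ^ 2 * X ^ (5 / 3 : ℝ) := by
  have hXd2 : 1 ≤ X ^ (d / 2) := Real.one_le_rpow hX1 (by positivity)
  have h1 : X ^ (d / 2) ≤ X ^ (d / 2) * X ^ (d / 2) := by nlinarith
  have h2 : b₀ * (a₀ * b₀) * X ^ (d / 2) ≤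
      (4 * X ^ (2 / 3 - d)) * X * (X ^ (d / 2) * X ^ (d / 2)) := by
    calc b₀ * (a₀ * b₀) * X ^ (d / 2) ≤ b₀ * X * X ^ (d / 2) := by gcongr
      _ ≤ (4 * X ^ (2 / 3 - d)) * X * (X ^ (d / 2) * X ^ (d / 2)) := by gcongr
  calc (2 * b₀) * (C₀ * 1 * 1 * b₀ * S) * L
      ≤ (2 * b₀) * (C₀ * 1 * 1 * b₀ * S) * (Lc * X ^ (d / 2)) := by gcongr
    _ ≤ (2 * b₀) * (C₀ * 1 * 1 * b₀ * (8 * a₀ * G ^ 2)) * (Lc * X ^ (d / 2)) := by gcongr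
    _ = 16 * C₀ * Lc * G ^ 2 * (b₀ * (a₀ * b₀) * X ^ (d / 2)) := by ring
    _ ≤ 16 * C₀ * Lc * G ^ 2 * ((4 * X ^ (2 / 3 - d)) * X * (X ^ (d / 2) * X ^ (d / 2))) := by
        gcongr
    _ = 64 * C₀ * Lc * G ^ 2 * (X ^ (2 / 3 - d) * X * (X ^ (d / 2) * X ^ (d / 2))) := by ring
    _ = 64 * C₀ * Lc * G ^ 2 * X ^ (5 / 3 : ℝ) := by rw [hX53 hX0]
    _ ≤ _ := by
        have : 0 ≤ C₀ * Lc * G ^ 2 * X ^ (5 / 3 : ℝ) := by positivity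
        linarith

theorem arith_two {X d C₀ C₂ Lc L G a₀ b₀ E : ℝ} (hX0 : 0 < X)
    (hC₀ : 0 ≤ C₀) (hC₂ : 0 ≤ C₂) (hLc0 : 0 ≤ Lc) (hlog : L ≤ Lc * X ^ (d / 2)) (hb0 : 0 ≤ b₀)
    (hab : a₀ * b₀ ≤ X) (hB1 : b₀ ≤ 4 * X ^ (2 / 3 - d)) (hE0 : 0 ≤ E)
    (hE : E ≤ C₂ * G ^ 2 * (2 * a₀ * X ^ (d / 2))) :
    (2 * b₀) * (C₀ * 1 * b₀ * E) * L ≤ 64 * C₀ * C₂ * Lc * G ^ 2 * X ^ (5 / 3 : ℝ) := by
  calc (2 * b₀) * (C₀ * 1 * b₀ * E) * L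
      ≤ (2 * b₀) * (C₀ * 1 * b₀ * E) * (Lc * X ^ (d / 2)) := by gcongr
    _ ≤ (2 * b₀) * (C₀ * 1 * b₀ * (C₂ * G ^ 2 * (2 * a₀ * X ^ (d / 2)))) *
          (Lc * X ^ (d / 2)) := by gcongr
    _ = 4 * C₀ * C₂ * Lc * G ^ 2 * (b₀ * (a₀ * b₀) * (X ^ (d / 2) * X ^ (d / 2))) := by ring
    _ ≤ 4 * C₀ * C₂ * Lc * G ^ 2 * (b₀ * X * (X ^ (d / 2) * X ^ (d / 2))) := by gcongr
    _ ≤ 4 * C₀ * C₂ * Lc * G ^ 2 *
          ((4 * X ^ (2 / 3 - d)) * X * (X ^ (d / 2) * X ^ (d / 2))) := by gcongr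
    _ = 16 * C₀ * C₂ * Lc * G ^ 2 *
          (X ^ (2 / 3 - d) * X * (X ^ (d / 2) * X ^ (d / 2))) := by ring
    _ = 16 * C₀ * C₂ * Lc * G ^ 2 * X ^ (5 / 3 : ℝ) := by rw [hX53 hX0]
    _ ≤ _ := by
        have : 0 ≤ C₀ * C₂ * Lc * G ^ 2 * X ^ (5 / 3 : ℝ) := by positivity
        linarith

theorem arith_three {X C₁ L G a₀ b₀ : ℝ} (hC₁ : 0 ≤ C₁) (ha0 : 0 ≤ a₀) (hb0 : 0 ≤ b₀)
    (hab : a₀ * b₀ ≤ X) (hL : 0 < L) :
    (2 * b₀) * (C₁ * (4 * G) ^ 2 * a₀ ^ (5 / 3 : ℝ) * b₀ ^ (2 / 3 : ℝ) / L) * L ≤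
      32 * C₁ * G ^ 2 * X ^ (5 / 3 : ℝ) := by
  have e1 : b₀ * b₀ ^ (2 / 3 : ℝ) = b₀ ^ (5 / 3 : ℝ) := by
    rw [← Real.rpow_one_add' hb0 (by norm_num)]; norm_num
  calc _ = 32 * C₁ * G ^ 2 * (a₀ ^ (5 / 3 : ℝ) * (b₀ * b₀ ^ (2 / 3 : ℝ))) := by
        field_simp; ring
    _ = 32 * C₁ * G ^ 2 * (a₀ * b₀) ^ (5 / 3 : ℝ) := by
        rw [e1, Real.mul_rpow ha0 hb0]
    _ ≤ _ := by gcongr

/-- the case of `DN`: `A^{1+δ} ≤ B` -/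
theorem case_DN {d δ : ℝ} (hd : 0 < d) (hδ : 0 < δ) (hδ3 : δ ≤ 1 / 3) (hDN : DNHyp wf δ)
    (A : ℕ) : ∃ C : ℝ, 0 ≤ C ∧
    ∀ X G : ℝ, 3 ≤ X → 1 ≤ G → 4 ≤ X ^ d → ∀ (α : O → ℂ) (i j l : ℕ), ClassG α X G →
      (2 : ℝ) ^ (i + j) ≤ X → X ^ (1 / 3 + d) < (2 : ℝ) ^ (i + 1) →
      ((2 : ℝ) ^ i - 1 / 2) ^ (1 + δ) ≤ (2 : ℝ) ^ j - 1 / 2 →
      2 ^ j * FS (fun a b => wf (a * b)) α i j l * Real.log X ^ A ≤
        C * G ^ 2 * X ^ (5 / 3 : ℝ) := by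
  classical
  obtain ⟨C₀, hC₀, hDN⟩ := hDN
  obtain ⟨C₁, hC₁, hDN⟩ := hDN 1 primary_one squarefree_one A 0
  obtain ⟨C₂, hC₂, hEM⟩ := EMf_le (ε := d / 4) (by positivity)
  set Lc := ((A + 1) / (d / 2)) ^ A with hLc
  have hLc0 : 0 ≤ Lc := by positivity
  refine ⟨1024 * C₀ * Lc + 64 * C₀ * C₂ * Lc + 32 * C₁, by positivity, ?_⟩
  intro X G hX hG hXd α i j l hα hij hi1 hAB
  have hX0 : 0 < X := by linarith
  have hX1 : 1 ≤ X := by linarith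
  have hL : 0 ≤ Real.log X := Real.log_nonneg hX1
  have hL1 : 1 ≤ Real.log X := by
    rw [Real.le_log_iff_exp_le hX0]
    exact (Real.exp_one_lt_d9.le.trans (by norm_num)).trans hX
  have hlog : Real.log X ^ A ≤ Lc * X ^ (d / 2) := log_pow_le (by positivity) A hX1
  have hG0 : 0 ≤ G := by linarith
  set a₀ : ℝ := (2 : ℝ) ^ i - 1 / 2 with ha₀
  set b₀ : ℝ := (2 : ℝ) ^ j - 1 / 2 with hb₀
  have h2i : (1 : ℝ) ≤ 2 ^ i := one_le_pow₀ (by norm_num)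
  have h2j : (1 : ℝ) ≤ 2 ^ j := one_le_pow₀ (by norm_num)
  have ha1 : (2 : ℝ) ^ i ≤ 2 * a₀ := by linarith
  have hb1 : (2 : ℝ) ^ j ≤ 2 * b₀ := by linarith
  have ha0 : 0 < a₀ := by linarith
  have hb0 : 0 < b₀ := by linarith
  have hab : a₀ * b₀ ≤ X := by
    calc a₀ * b₀ ≤ 2 ^ i * 2 ^ j := by gcongr <;> linarith
      _ = 2 ^ (i + j) := by rw [pow_add]
      _ ≤ X := hij
  have hA1 : X ^ (1 / 3 + d) ≤ 4 * a₀ := by rw [pow_succ] at hi1; linarith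
  have hA2 : X ^ (1 / 3 : ℝ) ≤ a₀ := by
    have h1 : X ^ (1 / 3 + d) = X ^ (1 / 3 : ℝ) * X ^ d := Real.rpow_add hX0 _ _
    rw [h1] at hA1
    have h2 : X ^ (1 / 3 : ℝ) * 4 ≤ X ^ (1 / 3 : ℝ) * X ^ d := by gcongr
    linarith
  have hA3 : X ^ δ ≤ a₀ := (Real.rpow_le_rpow_of_exponent_le hX1 hδ3).trans hA2
  -- `b₀ ≤ 4 X^{2/3-d}`
  have hB1 : b₀ ≤ 4 * X ^ (2 / 3 - d) := by
    have h1 : X ^ (1 / 3 + d) * b₀ ≤ 4 * X := by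
      calc X ^ (1 / 3 + d) * b₀ ≤ (4 * a₀) * b₀ := by gcongr
        _ ≤ 4 * X := by linarith
    have h2 : (4 : ℝ) * X = X ^ (1 / 3 + d) * (4 * X ^ (2 / 3 - d)) := by
      have : X = X ^ (1 / 3 + d) * X ^ (2 / 3 - d) := by
        rw [← Real.rpow_add hX0]
        conv_lhs => rw [← Real.rpow_one X]
        congr 1; ring
      linear_combination 4 * this
    rw [h2] at h1
    exact le_of_mul_le_mul_left h1 (by positivity)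
  have hB2 : b₀ ≤ 100 * a₀ ^ 2 := by
    have h1 : X ^ (2 / 3 - d) ≤ X ^ (2 / 3 : ℝ) :=
      Real.rpow_le_rpow_of_exponent_le hX1 (by linarith)
    have h2 : X ^ (2 / 3 : ℝ) = (X ^ (1 / 3 : ℝ)) ^ 2 := by
      rw [← Real.rpow_natCast, ← Real.rpow_mul hX0.le]; norm_num
    have h3 : (X ^ (1 / 3 : ℝ)) ^ 2 ≤ a₀ ^ 2 := by gcongr
    have h4 : 0 ≤ a₀ ^ 2 := by positivity
    linarith
  set α' : O → ℂ := fun a => if a₀ < (N a : ℝ) ∧ (N a : ℝ) ≤ 2 * a₀ then α a else 0 with hα'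
  have hcls : ClassG α' X (4 * G) := hα.interval a₀ (2 * a₀)
  have hbd : ∀ a, ‖α' a‖ ≤ G := by
    intro a
    rw [hα']; simp only
    split_ifs
    · exact hα.bound a
    · rw [norm_zero]; exact hG0
  have hmain := hDN X a₀ b₀ hX hA3 hAB hB2 hab 1 1 (by simp) le_rfl le_rfl (by norm_num) l
    (4 * G) (by linarith) α' hcls (by
      intro a ha
      refine ⟨isCoprime_one_right, ?_⟩
      by_contra h
      apply ha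
      rw [hα']; simp only
      rw [if_neg h])
  rw [← FS_eq_FamS] at hmain
  rw [dens_one, Real.one_rpow] at hmain
  have hsq : ∑ a ∈ SPB (2 * a₀), ‖α' a‖ ^ 2 ≤ 8 * a₀ * G ^ 2 := by
    calc ∑ a ∈ SPB (2 * a₀), ‖α' a‖ ^ 2 ≤ ∑ a ∈ SPB (2 * a₀), G ^ 2 := by
          gcongr with a ha
          exact hbd a
      _ = (SPB (2 * a₀)).card * G ^ 2 := by rw [sum_const, nsmul_eq_mul]
      _ ≤ (4 * (2 * a₀)) * G ^ 2 := by
          gcongr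
          refine le_trans ?_ (card_PB_le (by positivity))
          exact_mod_cast card_le_card SPB_subset_PB
      _ = _ := by ring
  have h2a : 1 ≤ 2 * a₀ := by linarith
  have hEM1 := hEM (2 * a₀) G h2a hG0 α' l hbd
  have hEM2 : (2 * a₀) ^ (1 + d / 4) ≤ 2 * a₀ * X ^ (d / 2) := by
    rw [Real.rpow_add (by positivity), Real.rpow_one]
    have h1 : 2 * a₀ ≤ X ^ (2 : ℝ) := by
      have h3 : a₀ ≤ X := by
        calc a₀ ≤ 2 ^ i * 1 := by linarith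
          _ ≤ 2 ^ i * 2 ^ j := by gcongr
          _ = 2 ^ (i + j) := by rw [pow_add]
          _ ≤ X := hij
      rw [Real.rpow_two]; nlinarith
    have h2 : (2 * a₀) ^ (d / 4) ≤ X ^ (d / 2) := by
      calc (2 * a₀) ^ (d / 4) ≤ (X ^ (2 : ℝ)) ^ (d / 4) := by gcongr
        _ = X ^ (d / 2) := by rw [← Real.rpow_mul hX0.le]; ring_nf
    gcongr
  have hLA : 0 < Real.log X ^ A := by positivity
  have hFS0 : 0 ≤ FS (fun a b => wf (a * b)) α i j l := FS_nonneg _ _ _ _ _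
  have hS0 : 0 ≤ ∑ a ∈ SPB (2 * a₀), ‖α' a‖ ^ 2 := sum_nonneg fun _ _ => by positivity
  have t1 := arith_one hX0 hX1 hd hC₀ hLc0 hlog hb0.le hab hB1 hS0 hsq
  have t2 := arith_two hX0 hC₀ hC₂ hLc0 hlog hb0.le hab hB1 (EMf_nonneg α' (2 * a₀) l)
    (hEM1.trans (mul_le_mul_of_nonneg_left hEM2 (by positivity)))
  have t3 := arith_three (G := G) hC₁ ha0.le hb0.le hab hLA
  calc 2 ^ j * FS (fun a b => wf (a * b)) α i j l * Real.log X ^ A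
      ≤ (2 * b₀) * (C₀ * 1 * 1 * b₀ * ∑ a ∈ SPB (2 * a₀), ‖α' a‖ ^ 2 +
          C₀ * 1 * b₀ * EMf α' (2 * a₀) l +
          C₁ * (4 * G) ^ 2 * a₀ ^ (5 / 3 : ℝ) * b₀ ^ (2 / 3 : ℝ) / Real.log X ^ A) *
          Real.log X ^ A := by gcongr
    _ = (2 * b₀) * (C₀ * 1 * 1 * b₀ * ∑ a ∈ SPB (2 * a₀), ‖α' a‖ ^ 2) * Real.log X ^ A +
        (2 * b₀) * (C₀ * 1 * b₀ * EMf α' (2 * a₀) l) * Real.log X ^ A +
        (2 * b₀) * (C₁ * (4 * G) ^ 2 * a₀ ^ (5 / 3 : ℝ) * b₀ ^ (2 / 3 : ℝ) /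
          Real.log X ^ A) * Real.log X ^ A := by ring
    _ ≤ _ := by
        refine (add_le_add (add_le_add t1 t2) t3).trans (le_of_eq ?_)
        ring

/-- **Interior Type II theorem** from DN and the cubic large sieve. -/
theorem tiix_of_dn {d κ δ : ℝ} (hd : 0 < d) (hκ : 0 < κ) (hδ : 0 < δ) (hδκ : δ ≤ κ)
    (hδ3 : δ ≤ 1 / 3) (hDN : DNHyp wf δ) (hHB : HBsq) : TIIX wf d κ := by
  intro A
  have key := bil_of_fam (w := wf) (u := fun _ => 1) (D := fun a b => wf (a * b))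
    (fun _ => by simp) (fun a b _ _ _ _ => (one_mul _).symm)
    (fun X G α => ClassG α X G ∧
      ∀ a, α a ≠ 0 → X ^ (1 / 3 + d) < (N a : ℝ) ∧ (N a : ℝ) ≤ X ^ (1 / 2 - κ))
    (fun X G α h a ha => ⟨(h.1.supp a ha).1, (h.1.supp a ha).2.1⟩) ?_ A
  · obtain ⟨C, hC, h⟩ := key
    exact ⟨C, hC, fun X hX G hG α β hα hs hβ hβs x hx => h X hX G hG α β ⟨hα, hs⟩ hβ hβs x hx⟩
  · intro A
    obtain ⟨C₁, hC₁, h1⟩ := case_small hd A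
    obtain ⟨C₂, hC₂, h2⟩ := case_HB hHB hκ A
    obtain ⟨C₃, hC₃, h3⟩ := case_DN hd hδ hδ3 hDN A
    refine ⟨C₁ + C₂ + C₃, by positivity, fun X hX G hG α hα i j l hij => ?_⟩
    have hX0 : 0 < X := by linarith
    have hX1 : 1 ≤ X := by linarith
    have hL1 : 1 ≤ Real.log X := by
      rw [Real.le_log_iff_exp_le hX0]
      exact (Real.exp_one_lt_d9.le.trans (by norm_num)).trans hX
    have hLA : 0 < Real.log X ^ A := by positivity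
    have hpos : 0 ≤ G ^ 2 * X ^ (5 / 3 : ℝ) := by positivity
    have hfin : ∀ C', 0 ≤ C' → C' ≤ C₁ + C₂ + C₃ →
        2 ^ j * FS (fun a b => wf (a * b)) α i j l * Real.log X ^ A ≤
          C' * G ^ 2 * X ^ (5 / 3 : ℝ) →
        FS (fun a b => wf (a * b)) α i j l ≤ (C₁ + C₂ + C₃) * G ^ 2 * X ^ (5 / 3 : ℝ) /
          (2 ^ j * Real.log X ^ A) := by
      intro C' _ hC' h
      rw [le_div_iff₀ (by positivity)]
      calc _ = 2 ^ j * FS (fun a b => wf (a * b)) α i j l * Real.log X ^ A := by ring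
        _ ≤ _ := h
        _ = C' * (G ^ 2 * X ^ (5 / 3 : ℝ)) := by ring
        _ ≤ (C₁ + C₂ + C₃) * (G ^ 2 * X ^ (5 / 3 : ℝ)) := by gcongr
        _ = _ := by ring
    by_cases hne : ∃ a ∈ DB i, α a ≠ 0
    · obtain ⟨a, ha, hαa⟩ := hne
      have hs := hα.2 a hαa
      have hb := DB_bounds ha
      have hi1 : X ^ (1 / 3 + d) < (2 : ℝ) ^ (i + 1) := by
        have : ((N a : ℕ) : ℝ) < ((2 ^ (i + 1) : ℕ) : ℝ) := by exact_mod_cast hb.2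
        push_cast at this
        linarith [hs.1]
      have hi2 : (2 : ℝ) ^ i ≤ X ^ (1 / 2 - κ) := by
        have : ((2 ^ i : ℕ) : ℝ) ≤ ((N a : ℕ) : ℝ) := by exact_mod_cast hb.1
        push_cast at this
        linarith [hs.2]
      rcases lt_or_ge (X ^ d) 4 with hXd | hXd
      · exact hfin C₁ hC₁ (by linarith) (h1 X G hX hG hXd α i j l hα.1.bound hij)
      rcases le_or_gt (((2 : ℝ) ^ i - 1 / 2) ^ (1 + δ)) ((2 : ℝ) ^ j - 1 / 2) with hAB | hAB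
      · exact hfin C₃ hC₃ (by linarith) (h3 X G hX hG hXd α i j l hα.1 hij hi1 hAB)
      · have hj : (2 : ℝ) ^ j ≤ 2 * X ^ ((1 / 2 - κ) * (1 + δ)) := by
          have e1 : (1 : ℝ) ≤ 2 ^ i := one_le_pow₀ (by norm_num)
          have e2 : (1 : ℝ) ≤ 2 ^ j := one_le_pow₀ (by norm_num)
          have e3 : ((2 : ℝ) ^ i - 1 / 2) ^ (1 + δ) ≤ (X ^ (1 / 2 - κ)) ^ (1 + δ) := by
            apply Real.rpow_le_rpow (by linarith) (by linarith) (by linarith)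
          rw [← Real.rpow_mul hX0.le] at e3
          linarith
        refine hfin C₂ hC₂ (by linarith) (h2 X G hX hG α i j l hα.1.bound ?_ ?_ ?_ hij)
        · calc (2 : ℝ) ^ (i + j) = 2 ^ i * 2 ^ j := by rw [pow_add]
            _ ≤ X ^ (1 / 2 - κ) * (2 * X ^ ((1 / 2 - κ) * (1 + δ))) := by gcongr
            _ = 2 * X ^ ((1 / 2 - κ) * (2 + δ)) := by
                rw [mul_left_comm, ← Real.rpow_add hX0]; congr 2; ring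
            _ ≤ 2 * X ^ (1 - κ) := by
                refine mul_le_mul_of_nonneg_left (Real.rpow_le_rpow_of_exponent_le hX1 ?_)
                  (by norm_num)
                nlinarith
            _ ≤ _ := by
                have : 0 ≤ X ^ (1 - κ) := by positivity
                linarith
        · have h5 : X ^ (1 / 2 - κ) ≤ X ^ (1 / 2 : ℝ) :=
            Real.rpow_le_rpow_of_exponent_le hX1 (by linarith)
          have h6 : 0 ≤ X ^ (1 / 2 : ℝ) := by positivity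
          linarith
        · have h5 : X ^ ((1 / 2 - κ) * (1 + δ)) ≤ X ^ (1 / 2 : ℝ) := by
            refine Real.rpow_le_rpow_of_exponent_le hX1 ?_
            nlinarith
          have h6 : 0 ≤ X ^ (1 / 2 : ℝ) := by positivity
          linarith
    · push Not at hne
      have h0 : FS (fun a b => wf (a * b)) α i j l = 0 := by
        rw [FS]
        refine sum_eq_zero fun s _ => sum_eq_zero fun b _ => ?_
        rw [sum_eq_zero fun a ha => by rw [hne a (mem_filter.1 ha).1, zero_mul]]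
        simp
      rw [h0]
      positivity

end Vale.Agent.P006.DN
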