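import Vale.Agent.P006.DN.NCint
import Vale.Agent.P006.DN.EM
import Vale.Agent.P006.H206.Inst

/-!
P006, block DN (helper611): the quadratic form `NCQ`: identification with helper206's form,
scaling, tail bound.
-/

namespace Vale.Agent.P006.DN

open scoped Classical
open Finset DISP

theorem NCQ_eq_NC (α : O → ℂ) (A H : ℝ) : NCQ α A H = NC.NCQ α A H := by
  rw [NC.NCQ_eq, NCQ]
  refine sum_congr rfl fun j _ => ?_
  rw [sum_filter]
  refine sum_congr rfl fun κ hκ => ?_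
  rw [HB.mem_Hn] at hκ
  have : NonCube κ ↔ ¬ ∃ e : O, κ = e ^ 3 := by
    rw [NonCube]
    exact ⟨fun h => h.2, fun h => ⟨hκ.2, h⟩⟩
  by_cases hc : NonCube κ
  · rw [if_pos hc, if_pos (this.1 hc)]
  · rw [if_neg hc, if_neg fun h => hc (this.2 h)]

theorem NCQ_smul (c : ℂ) (α : O → ℂ) (A H : ℝ) :
    NCQ (fun a => c * α a) A H = ‖c‖ ^ 2 * NCQ α A H := by
  rw [NCQ, NCQ, mul_sum]
  refine sum_congr rfl fun j _ => ?_
  rw [mul_sum]
  refine sum_congr rfl fun κ _ => ?_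
  have : ∑ r ∈ SPB (A / N j), c * α (j * r) * toC (sym κ r) =
      c * ∑ r ∈ SPB (A / N j), α (j * r) * toC (sym κ r) := by
    rw [mul_sum]; exact sum_congr rfl fun r _ => by ring
  rw [this, norm_mul]; ring

/-- the tail bound: full cubic large sieve for `NCQ` -/
theorem nc_tail {ε : ℝ} (hε : 0 < ε) : ∃ C : ℝ, 0 ≤ C ∧ ∀ (S : Finset ℕ) (α : ℕ → O → ℂ),
    (∀ a, ∑ s ∈ S, ‖α s a‖ ≤ 1) → ∀ A H : ℝ, 1 ≤ A → 1 ≤ H →
      ∑ s ∈ S, NCQ (α s) A H ≤ C * (A * H) ^ ε *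
        (A * H + A ^ 2 * H ^ (1 / 3 : ℝ) + A ^ (5 / 3 : ℝ) * H ^ (2 / 3 : ℝ)) := by
  have hε2 : 0 < ε / 2 := by positivity
  obtain ⟨C, hC, hfull⟩ := NC.full_main NC.hbsq hε2
  set c2 : ℝ := ((1 / 2 : ℝ)) ^ (-(1 / 6 : ℝ)) * (64 / (1 - 2 ^ (1 - (7 / 6 : ℝ)))) ^ 2 with hc2
  have hc20 : 0 ≤ c2 := by positivity
  set c1 : ℝ := 128 ^ 2 * (1 + 4 / ε) ^ 2 with hc1
  have hc10 : 0 ≤ c1 := by positivity
  refine ⟨32 * C * (c1 + c2), by positivity, ?_⟩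
  intro S α hα A H hA hH
  have hA0 : 0 < A := by linarith
  have hH0 : 0 < H := by linarith
  have hF : NC.Fam S α := ⟨hα⟩
  have h1 := NC.pairs_sum hC hε2 hfull hF hA hH (show (0 : ℝ) < 1 / 2 by norm_num)
  rw [← hc2] at h1
  have h2 : ∑ s ∈ S, NCQ (α s) A H ≤ ∑ j ∈ NC.PB A with (1 / 2 : ℝ) < (N j : ℝ),
      ∑ κ ∈ NC.NZ H, NC.gw j κ * ∑ s ∈ S, ‖NC.inner (α s) A j κ‖ ^ 2 := by
    have e1 : (NC.PB A).filter (fun j => (1 / 2 : ℝ) < (N j : ℝ)) = NC.PB A := by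
      refine filter_true_of_mem fun j hj => ?_
      have := (NC.mem_PB.1 hj).2.1.one_le_N'
      linarith
    rw [e1]
    simp only [NCQ_eq_NC, NC.NCQ]
    rw [sum_comm]
    refine sum_le_sum fun j _ => ?_
    rw [sum_comm]
    refine sum_le_sum fun κ _ => ?_
    rw [mul_sum]
    refine sum_le_sum fun s _ => ?_
    by_cases hc : ¬ NC.IsCube κ
    · rw [if_pos hc]
    · rw [if_neg hc]
      exact mul_nonneg (NC.gw_nonneg _ _) (by positivity)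
  refine (h2.trans h1).trans ?_
  have hAH : 1 ≤ A * H := by nlinarith
  have hP : 1 ≤ (A * H) ^ (ε / 2) := Real.one_le_rpow hAH hε2.le
  have hlog : (128 * (1 + Real.log A)) ^ 2 ≤ c1 * (A * H) ^ (ε / 2) := by
    have h3 : Real.log A ≤ A ^ (ε / 4) / (ε / 4) := Real.log_le_rpow_div hA0.le (by positivity)
    have h4 : A ^ (ε / 4) ≤ (A * H) ^ (ε / 4) := by
      apply Real.rpow_le_rpow hA0.le _ (by positivity)
      nlinarith
    have h5 : 1 ≤ (A * H) ^ (ε / 4) := Real.one_le_rpow hAH (by positivity)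
    have h6 : 0 ≤ Real.log A := Real.log_nonneg hA
    have h7 : 1 + Real.log A ≤ (1 + 4 / ε) * (A * H) ^ (ε / 4) := by
      have : A ^ (ε / 4) / (ε / 4) ≤ (A * H) ^ (ε / 4) / (ε / 4) := by gcongr
      calc 1 + Real.log A ≤ (A * H) ^ (ε / 4) + (A * H) ^ (ε / 4) / (ε / 4) := by linarith
        _ = _ := by field_simp
    have h8 : ((A * H) ^ (ε / 4)) ^ 2 = (A * H) ^ (ε / 2) := by
      rw [← Real.rpow_natCast, ← Real.rpow_mul (by positivity)]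
      congr 1; push_cast; ring
    calc (128 * (1 + Real.log A)) ^ 2 ≤ (128 * ((1 + 4 / ε) * (A * H) ^ (ε / 4))) ^ 2 := by gcongr
      _ = 128 ^ 2 * (1 + 4 / ε) ^ 2 * ((A * H) ^ (ε / 4)) ^ 2 := by ring
      _ = _ := by rw [h8]
  have hsplit : (A * H) ^ ε = (A * H) ^ (ε / 2) * (A * H) ^ (ε / 2) := by
    rw [← Real.rpow_add (by positivity), add_halves]
  have hb1 : 0 ≤ A * H := by positivity
  have hb2 : 0 ≤ A ^ 2 * H ^ (1 / 3 : ℝ) + A ^ (5 / 3 : ℝ) * H ^ (2 / 3 : ℝ) := by positivity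
  calc 32 * C * (A * H) ^ (ε / 2) * (H * A * (128 * (1 + Real.log A)) ^ 2 +
        (H ^ (1 / 3 : ℝ) * A ^ 2 + H ^ (2 / 3 : ℝ) * A ^ (5 / 3 : ℝ)) * c2)
      ≤ 32 * C * (A * H) ^ (ε / 2) * (H * A * (c1 * (A * H) ^ (ε / 2)) +
        (H ^ (1 / 3 : ℝ) * A ^ 2 + H ^ (2 / 3 : ℝ) * A ^ (5 / 3 : ℝ)) * (c2 * (A * H) ^ (ε / 2))) := by
        gcongr
        exact le_mul_of_one_le_right hc20 hP
    _ = 32 * C * (A * H) ^ ε * (c1 * (A * H) +
        c2 * (A ^ 2 * H ^ (1 / 3 : ℝ) + A ^ (5 / 3 : ℝ) * H ^ (2 / 3 : ℝ))) := by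
        rw [hsplit]; ring
    _ ≤ 32 * C * (A * H) ^ ε * ((c1 + c2) * (A * H +
        (A ^ 2 * H ^ (1 / 3 : ℝ) + A ^ (5 / 3 : ℝ) * H ^ (2 / 3 : ℝ)))) := by
        gcongr
        nlinarith [mul_nonneg hc10 hb2, mul_nonneg hc20 hb1]
    _ = _ := by ring

end Vale.Agent.P006.DN
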